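import Mathlib

/-! The final asymptotic computation. -/

namespace Vale.Agent.P336C

/-- A polynomial is eventually below `2 ^ (γ * √n)`. -/
theorem poly_lt {γ : ℝ} (hγ : 0 < γ) (m : ℕ) :
    ∃ N : ℕ, ∀ n : ℕ, N ≤ n → ((n : ℝ) + 2) ^ m < (2 : ℝ) ^ (γ * Real.sqrt n) := by
  have hb : 0 < Real.log 2 * γ := mul_pos (Real.log_pos one_lt_two) hγ
  have hT : Filter.Tendsto (fun n : ℕ => Real.sqrt n) Filter.atTop Filter.atTop :=
    Real.tendsto_sqrt_atTop.comp tendsto_natCast_atTop_atTop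
  have h := hT.eventually ((isLittleO_pow_exp_pos_mul_atTop (2 * m) hb).bound
    (by positivity : (0 : ℝ) < 1 / (2 * 3 ^ m)))
  obtain ⟨N, hN⟩ := Filter.eventually_atTop.1 (h.and (Filter.eventually_ge_atTop 1))
  refine ⟨N, fun n hn => ?_⟩
  obtain ⟨h1, h2⟩ := hN n hn
  have h3 : (1 : ℝ) ≤ n := by exact_mod_cast h2
  rw [Real.norm_of_nonneg (by positivity), Real.norm_of_nonneg (Real.exp_pos _).le, pow_mul,
    Real.sq_sqrt (by linarith), mul_assoc, ← Real.rpow_def_of_pos two_pos, one_div, inv_mul_eq_div,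
    le_div_iff₀ (by positivity)] at h1
  have h4 : ((n : ℝ) + 2) ^ m ≤ (3 * n) ^ m := pow_le_pow_left₀ (by linarith) (by linarith) m
  rw [mul_pow] at h4
  have h5 : (0 : ℝ) < 3 ^ m * (n : ℝ) ^ m := by positivity
  linarith

/-- `c' = √cs`, `c = (π / √6 + c') / 2`, `γ = c' - c`, `k = ⌈c' * √n⌉₊ ≤ c' * √n + 1`. Then
`cs * n / k ≥ c' * √n - 1` and `k ≥ c' * √n`, so after dividing by `2 ^ n` the two terms are at
most `4 * 2 ^ (-γ * √n)` and `(n + 1) ^ d * 2 ^ (-γ * √n)`; `poly_lt` with `m = b + d + 3`. -/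
theorem asym {cs : ℝ} (hc : Real.pi ^ 2 / 6 < cs) (b d k0 : ℕ) : ∃ c : ℝ,
    Real.pi / Real.sqrt 6 < c ∧ ∃ N : ℕ, ∀ n : ℕ, N ≤ n → ∃ k : ℕ, k0 ≤ k ∧ ∀ s : ℝ, 0 ≤ s →
      s < (2 : ℝ) ^ (c * Real.sqrt n) →
      (s * (2 * (2 : ℝ) ^ ((n : ℝ) - cs * n / k)) + s * (((n : ℝ) + 1) ^ d * 2 ^ n / 2 ^ k)) *
        ((n : ℝ) + 2) ^ b < 2 ^ n := by
  have h6 : (0 : ℝ) < Real.sqrt 6 := by positivity
  have h0 : 0 < Real.pi / Real.sqrt 6 := div_pos Real.pi_pos h6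
  have hcs : 0 < cs := lt_of_le_of_lt (by positivity) hc
  set c' := Real.sqrt cs with hc'
  have h1 : Real.pi / Real.sqrt 6 < c' := by
    refine Real.lt_sqrt_of_sq_lt ?_
    rwa [div_pow, Real.sq_sqrt (by norm_num)]
  have hc0 : 0 < c' := h0.trans h1
  have hcc : c' * c' = cs := Real.mul_self_sqrt hcs.le
  set c := (Real.pi / Real.sqrt 6 + c') / 2 with hcd
  obtain ⟨N, hN⟩ := poly_lt (γ := c' - c) (by linarith) (b + d + 3)
  have hT : Filter.Tendsto (fun n : ℕ => c' * Real.sqrt n) Filter.atTop Filter.atTop :=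
    (Real.tendsto_sqrt_atTop.comp tendsto_natCast_atTop_atTop).const_mul_atTop hc0
  obtain ⟨N', hN'⟩ := Filter.eventually_atTop.1 (hT.eventually_ge_atTop (k0 + 1))
  refine ⟨c, by linarith, max N N', fun n hn => ?_⟩
  have h2 := hN n (le_of_max_le_left hn)
  have h3 := hN' n (le_of_max_le_right hn)
  have hn0 : (0 : ℝ) ≤ n := Nat.cast_nonneg n
  have hk0 : (0 : ℝ) ≤ k0 := Nat.cast_nonneg k0
  set x := c' * Real.sqrt n with hx
  have hxx : x * x = cs * n := by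
    rw [hx, mul_mul_mul_comm, hcc, Real.mul_self_sqrt hn0]
  have hk1 : x ≤ ⌈x⌉₊ := Nat.le_ceil x
  have hk2 : (⌈x⌉₊ : ℝ) < x + 1 := Nat.ceil_lt_add_one (by linarith)
  refine ⟨⌈x⌉₊, by exact_mod_cast (by linarith : (k0 : ℝ) ≤ ⌈x⌉₊), fun s hs0 hs => ?_⟩
  set k := ⌈x⌉₊
  have h4 : x - 1 ≤ cs * n / k := by
    rw [le_div_iff₀ (by linarith)]; nlinarith
  have hX : (0 : ℝ) < 2 ^ x := by positivity
  have h5 : (2 : ℝ) ^ ((n : ℝ) - cs * n / k) ≤ 2 * 2 ^ n / 2 ^ x := by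
    refine (Real.rpow_le_rpow_of_exponent_le one_le_two
      (by linarith : _ ≤ 1 + (n : ℝ) - x)).trans_eq ?_
    rw [Real.rpow_sub two_pos, Real.rpow_add two_pos, Real.rpow_one, Real.rpow_natCast]
  have h7 : ((n : ℝ) + 1) ^ d * 2 ^ n / 2 ^ k ≤ ((n : ℝ) + 2) ^ d * 2 ^ n / 2 ^ x := by
    have : (2 : ℝ) ^ x ≤ 2 ^ k := by
      rw [← Real.rpow_natCast]; exact Real.rpow_le_rpow_of_exponent_le one_le_two hk1
    gcongr
    norm_num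
  have h8 : (2 : ℝ) ^ (c * Real.sqrt n) * 2 ^ ((c' - c) * Real.sqrt n) = 2 ^ x := by
    rw [← Real.rpow_add two_pos, hx]; congr 1; ring
  have h9 : s * ((n : ℝ) + 2) ^ (b + d + 3) < 2 ^ x := by
    rw [← h8]
    exact mul_lt_mul'' hs h2 hs0 (by positivity)
  have h10 : (1 : ℝ) ≤ ((n : ℝ) + 2) ^ d := one_le_pow₀ (by linarith)
  have h11 : (8 : ℝ) ≤ ((n : ℝ) + 2) ^ 3 :=
    le_trans (by norm_num) (pow_le_pow_left₀ zero_le_two (by linarith : (2 : ℝ) ≤ n + 2) 3)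
  have h12 : 4 + ((n : ℝ) + 2) ^ d ≤ ((n : ℝ) + 2) ^ d * ((n : ℝ) + 2) ^ 3 := by nlinarith
  calc _ ≤ (s * (2 * (2 * 2 ^ n / 2 ^ x)) + s * (((n : ℝ) + 2) ^ d * 2 ^ n / 2 ^ x)) *
        ((n : ℝ) + 2) ^ b := by gcongr
    _ = s * ((n : ℝ) + 2) ^ b * (4 + ((n : ℝ) + 2) ^ d) / 2 ^ x * 2 ^ n := by ring
    _ ≤ s * ((n : ℝ) + 2) ^ b * (((n : ℝ) + 2) ^ d * ((n : ℝ) + 2) ^ 3) / 2 ^ x * 2 ^ n := by
      gcongr
    _ = s * ((n : ℝ) + 2) ^ (b + d + 3) / 2 ^ x * 2 ^ n := by ring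
    _ < 2 ^ n := mul_lt_of_lt_one_left (by positivity) ((div_lt_one hX).2 h9)

end Vale.Agent.P336C
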