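import Vale.Agent.P336C.Defs

/-! The truncated series. -/

namespace Vale.Agent.P336C

open Finset

variable {R : ℕ} {z s : ℝ}

theorem cR_zero (hR : 1 ≤ R) : cR R 0 = 1 := by
  obtain ⟨R, rfl⟩ := Nat.exists_eq_add_of_le' hR
  simp [cR, sum_range_succ']

/-- `Real.hasSum_pow_div_log_of_abs_lt_one` and `sum_le_hasSum`. -/
theorem cR_log (h0 : 0 ≤ z) (h1 : z < 1) : z * cR R z ≤ -Real.log (1 - z) := by
  have h := Real.hasSum_pow_div_log_of_abs_lt_one (x := z) (by rwa [abs_of_nonneg h0])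
  refine le_trans (le_of_eq ?_) (sum_le_hasSum (range R) (fun r _ => by positivity) h)
  rw [cR, mul_sum]
  exact sum_congr rfl fun r _ => by ring

theorem cR_half : cR R (1 / 2) ≤ 2 * Real.log 2 := by
  have h := cR_log (R := R) (z := 1 / 2) (by norm_num) (by norm_num)
  rw [show (1 : ℝ) - 1 / 2 = 2⁻¹ by norm_num, Real.log_inv] at h
  linarith

/-- The term `r = 1` gives the gap, the other terms are monotone. -/
theorem cR_gap (hR : 2 ≤ R) (h0 : 0 ≤ z) (h : z ≤ s) : cR R z + (s - z) / 2 ≤ cR R s := by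
  have h1 : s ^ 1 / (((1 : ℕ) : ℝ) + 1) - z ^ 1 / (((1 : ℕ) : ℝ) + 1) ≤
      ∑ r ∈ range R, (s ^ r / ((r : ℝ) + 1) - z ^ r / ((r : ℝ) + 1)) :=
    single_le_sum (f := fun r : ℕ => s ^ r / ((r : ℝ) + 1) - z ^ r / ((r : ℝ) + 1))
      (fun r _ => sub_nonneg.2 (by gcongr)) (mem_range.2 hR)
  rw [sum_sub_distrib] at h1
  unfold cR
  norm_num at h1 ⊢
  linarith

theorem one_le_cR (hR : 2 ≤ R) (h0 : 0 ≤ z) : 1 ≤ cR R z := by
  have h1 := cR_gap hR le_rfl h0
  rw [cR_zero (by omega)] at h1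
  linarith

/-- The iteration `s ↦ 1 - exp (-(c * s))` from `1`. All `s j` lie in `[0, 1]`. With
`η = exp (-(cR R 1))`: `s (j + 1) ≤ 1 - η`. If `z + δ ≤ t ≤ 1 - η` then
`c * t + δ ^ 2 / 2 ≤ t * cR R t ≤ -log (1 - t)`, so
`exp (-(c * t)) ≥ (1 - t) * (1 + δ ^ 2 / 2)` and `1 - exp (-(c * t)) ≤ t - η * δ ^ 2 / 2`.
If `t ≤ z + δ` then `1 - exp (-(c * t)) ≤ z + δ` (monotone in `t`; trivial if `1 - η ≤ z + δ`).
So `s (j + 1) ≤ max (z + δ) (1 - j * η * δ ^ 2 / 2)`. -/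
theorem iter (hR : 2 ≤ R) {δ : ℝ} (hδ : 0 < δ) : ∃ m : ℕ, ∀ c z : ℝ, 0 ≤ c → 0 ≤ z → z ≤ 1 →
    c ≤ cR R z → ∀ s : ℕ → ℝ, s 0 = 1 → (∀ j, s (j + 1) = 1 - Real.exp (-(c * s j))) →
      s m ≤ z + δ := by
  set η := Real.exp (-cR R 1) with hη
  have η0 : 0 < η := Real.exp_pos _
  have θ0 : 0 < η * δ ^ 2 / 2 := by positivity
  obtain ⟨m, hm⟩ := exists_nat_ge (1 / (η * δ ^ 2 / 2))
  rw [div_le_iff₀ θ0] at hm
  refine ⟨m + 1, fun c z c0 z0 z1 hc s s0 hs => ?_⟩
  have c1 : c ≤ cR R 1 := by linarith [cR_gap hR z0 z1]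
  have b1 : ∀ j, 0 ≤ s j ∧ s j ≤ 1 := fun j => by
    induction j with
    | zero => simp [s0]
    | succ j ih =>
      rw [hs]
      have h1 : Real.exp (-(c * s j)) ≤ 1 :=
        Real.exp_le_one_iff.2 (neg_nonpos.2 (mul_nonneg c0 ih.1))
      exact ⟨by linarith, by linarith [Real.exp_pos (-(c * s j))]⟩
  have b2 : ∀ j, s (j + 1) ≤ 1 - η := fun j => by
    rw [hs]
    exact sub_le_sub_left (Real.exp_le_exp.2 (neg_le_neg
      ((mul_le_of_le_one_right c0 (b1 j).2).trans c1))) _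
  have step : ∀ t, z + δ ≤ t → t ≤ 1 - η →
      1 - Real.exp (-(c * t)) ≤ t - η * δ ^ 2 / 2 := fun t t0 t1 => by
    have h1 := cR_gap hR z0 (s := t) (by linarith)
    have h2 := cR_log (R := R) (z := t) (by linarith) (by linarith)
    have h3 : t * (c + δ / 2) ≤ t * cR R t := mul_le_mul_of_nonneg_left (by linarith) (by linarith)
    have h4 : Real.log (1 - t) + δ ^ 2 / 2 ≤ -(c * t) := by nlinarith
    have h5 := Real.exp_le_exp.2 h4
    rw [Real.exp_add, Real.exp_log (by linarith)] at h5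
    have h6 := mul_le_mul_of_nonneg_left (Real.add_one_le_exp (δ ^ 2 / 2))
      (by linarith : 0 ≤ 1 - t)
    nlinarith [mul_le_mul_of_nonneg_right (by linarith : η ≤ 1 - t) (sq_nonneg δ)]
  have key : ∀ j : ℕ, s (j + 1) ≤ z + δ ∨ s (j + 1) ≤ 1 - j * (η * δ ^ 2 / 2) := fun j => by
    induction j with
    | zero => exact Or.inr (by simpa using (b1 1).2)
    | succ j ih =>
      by_cases h1 : z + δ ≤ s (j + 1)
      · have h2 := step _ h1 (b2 j)
        rw [← hs] at h2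
        push_cast
        exact ih.imp (fun h => by linarith) fun h => by linarith
      · by_cases h2 : z + δ ≤ 1 - η
        · have h3 := step _ le_rfl h2
          have h4 : Real.exp (-(c * (z + δ))) ≤ Real.exp (-(c * s (j + 1))) :=
            Real.exp_le_exp.2 (neg_le_neg (mul_le_mul_of_nonneg_left (not_le.1 h1).le c0))
          exact Or.inl (by rw [hs]; linarith)
        · exact Or.inl ((b2 _).trans (not_le.1 h2).le)
  exact (key m).elim id fun h => by linarith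

end Vale.Agent.P336C
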