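import Vale.Agent.P336C.Harris
import Vale.Agent.P336C.CR

/-! The tree bound. -/

namespace Vale.Agent.P336C

open Finset Vale.Agent.P151

/-- Take `m` from `iter`, `d = m + 3`, `c = k * th p` and the sequence `s` of `iter` (defined by
`Nat.rec`, nonnegative). Induction on `j`: `sv p D P ∅ ≤ s j` for every nonempty `P` with
`P.card + j ≤ d + 1`, by `b1` with `M = ∅` (the cover has at most `k` elements). -/
theorem base {R : ℕ} (hR : 2 ≤ R) {δ : ℝ} (hδ : 0 < δ) : ∃ d : ℕ, 3 ≤ d ∧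
    ∀ (ι : Type) [Fintype ι] [DecidableEq ι] (D : Finset (Finset ι)) (k : ℕ) (p z : ℝ),
      0 < p → p < 1 → 0 ≤ z → z ≤ 1 → (k : ℝ) * th p ≤ cR R z →
      (∀ P : Finset ι, P.Nonempty → P.card ≤ d → ∃ Q, Cover D k P Q) →
      ∀ P : Finset ι, P.Nonempty → P.card ≤ 3 → sv p D P ∅ ≤ z + δ := by
  obtain ⟨m, hm⟩ := iter hR hδ
  refine ⟨m + 3, by omega, fun ι _ _ D k p z h0 h1 z0 z1 hc hcov P hP hP3 => ?_⟩
  have ht := th_nonneg h0.le h1
  have c0 : 0 ≤ (k : ℝ) * th p := mul_nonneg (Nat.cast_nonneg _) ht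
  obtain ⟨s, s0, s1⟩ : ∃ s : ℕ → ℝ, s 0 = 1 ∧
      ∀ j, s (j + 1) = 1 - Real.exp (-((k : ℝ) * th p * s j)) :=
    ⟨fun j => Nat.rec 1 (fun _ t => 1 - Real.exp (-((k : ℝ) * th p * t))) j, rfl, fun _ => rfl⟩
  have s2 : ∀ j, 0 ≤ s j := by
    intro j
    induction j with
    | zero => rw [s0]; exact zero_le_one
    | succ j ih =>
      rw [s1, sub_nonneg]
      exact Real.exp_le_one_iff.2 (neg_nonpos.2 (mul_nonneg c0 ih))
  have key : ∀ j, ∀ P : Finset ι, P.Nonempty → P.card + j ≤ m + 4 → sv p D P ∅ ≤ s j := by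
    intro j
    induction j with
    | zero => intro P _ _; rw [s0]; exact sv_le_one h0.le h1.le
    | succ j ih =>
      intro P a1 a2
      obtain ⟨Q, hQ⟩ := hcov P a1 (by omega)
      refine (b1 h0.le h1 hQ ∅).trans ?_
      rw [s1, Finset.sdiff_empty]
      refine sub_le_sub_left (Real.exp_le_exp.2 (neg_le_neg ?_)) _
      have a3 : ∑ l ∈ Q, sv p D (insert l P) ∅ ≤ Q.card • s j :=
        Finset.sum_le_card_nsmul _ _ _ fun l _ => ih _ (Finset.insert_nonempty _ _) (by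
          have := Finset.card_insert_le l P
          omega)
      have a4 : (Q.card : ℝ) ≤ k := by exact_mod_cast hQ.1
      rw [nsmul_eq_mul] at a3
      have a5 := mul_le_mul_of_nonneg_left (a3.trans (mul_le_mul_of_nonneg_right a4 (s2 j))) ht
      linarith
  exact (key m P hP (by omega)).trans (hm _ z c0 z0 z1 hc s s0 s1)

end Vale.Agent.P336C
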