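import Vale.Agent.P336C.CR

/-! The area computation, with the gain on the window `[1 / 2 - ε, 1 / 2]`. -/

namespace Vale.Agent.P336C

open Finset

/-- Mean value inequality on an interval. -/
theorem mvt_le {f g f' g' : ℝ → ℝ} {a b : ℝ} (hab : a ≤ b)
    (hf : ∀ x ∈ Set.Icc a b, HasDerivAt f (f' x) x) (hg : ∀ x ∈ Set.Icc a b, HasDerivAt g (g' x) x)
    (h : ∀ x ∈ Set.Ioo a b, f' x ≤ g' x) : f b - f a ≤ g b - g a := by
  have h1 : MonotoneOn (fun x => g x - f x) (Set.Icc a b) := by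
    refine monotoneOn_of_deriv_nonneg (convex_Icc a b)
      (fun x hx => ((hg x hx).sub (hf x hx)).continuousAt.continuousWithinAt)
      (fun x hx => ((hg x (interior_subset hx)).sub
        (hf x (interior_subset hx))).differentiableAt.differentiableWithinAt) fun x hx => ?_
    have h2 : HasDerivAt (fun x => g x - f x) (g' x - f' x) x :=
      (hg x (interior_subset hx)).sub (hf x (interior_subset hx))
    rw [h2.deriv]
    rw [interior_Icc] at hx
    exact sub_nonneg.2 (h x hx)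
  have h2 := h1 (Set.left_mem_Icc.2 hab) (Set.right_mem_Icc.2 hab) hab
  simp only at h2
  linarith

/-- Derivatives of `cR R` and of `I z = ∑ r ∈ range R, z ^ (r + 1) / (r + 1) ^ 2`. -/
theorem cR_deriv {R : ℕ} (hR : 2 ≤ R) : ∃ c' I : ℝ → ℝ, (∀ z, HasDerivAt (cR R) (c' z) z) ∧
    (∀ z, HasDerivAt I (cR R z) z) ∧ (∀ z, 0 ≤ z → 1 / 2 ≤ c' z) ∧ I 0 = 0 ∧
      I 1 = ∑ r ∈ range R, 1 / ((r : ℝ) + 1) ^ 2 := by
  refine ⟨fun z => ∑ r ∈ range R, (r : ℝ) * z ^ (r - 1) / ((r : ℝ) + 1),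
    fun z => ∑ r ∈ range R, z ^ (r + 1) / ((r : ℝ) + 1) ^ 2, fun z => ?_, fun z => ?_,
    fun z hz => ?_, by simp, by simp⟩
  · exact HasDerivAt.fun_sum fun r _ => (hasDerivAt_pow r z).div_const _
  · refine HasDerivAt.fun_sum fun r _ => ((hasDerivAt_pow (r + 1) z).div_const _).congr_deriv ?_
    have : (r : ℝ) + 1 ≠ 0 := by positivity
    rw [Nat.add_sub_cancel]
    push_cast
    field_simp
  · refine le_trans (le_of_eq ?_) (single_le_sum
      (f := fun r : ℕ => (r : ℝ) * z ^ (r - 1) / ((r : ℝ) + 1)) (fun r _ => by positivity)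
      (mem_range.2 (show 1 < R by omega)))
    norm_num

/-- Path `p z = cR R z / (k + cR R z)`, so `k * th (p z) = cR R z`, `p 0 = 1 / (k + 1)` and
`0 ≤ p' z = k * c' z / (k + cR R z) ^ 2 ≤ c' z / k`. On `[0, p 0]`: `e ≤ δ` (`z = 0`), so
`Λ (p 0) ≤ δ / k`. `G z = (z * cR R z - I z + δ * cR R z) / k` has derivative `(z + δ) * c' z / k`;
use it on `[0, 1 / 2 - ε]` and `[1 / 2, 1]`, and use `G z - (z - 1 / 2 + ε) ^ 2 / (4 * k)` on the
window, whose derivative is at least `(1 / 2 - ε) * c' z / k`. Finally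
`H / (k + H) ≥ H / k - H ^ 2 / k ^ 2`. -/
theorem calc_path {R k : ℕ} (hR : 2 ≤ R) (hk : 1 ≤ k) {δ ε : ℝ} (hδ : 0 ≤ δ) (h0 : 0 < ε)
    (h1 : ε ≤ 1 / 20) :
    CalcSpec R k δ ε (∑ r ∈ range R, 1 / ((r : ℝ) + 1) ^ 2 + ε ^ 2 / 4 - δ * cR R 1 -
      cR R 1 ^ 2 / k) := by
  intro Λ e hΛ hΛ0 he hw
  obtain ⟨c', I, hc, hI, hc2, hI0, hI1⟩ := cR_deriv hR
  have hk' : (1 : ℝ) ≤ k := by exact_mod_cast hk
  have hk0 : (0 : ℝ) < k := by linarith
  have hz0 : cR R 0 = 1 := cR_zero (by omega)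
  have hone : ∀ z, 0 ≤ z → 1 ≤ cR R z := fun z hz => one_le_cR hR hz
  obtain ⟨P, hP⟩ : ∃ P : ℝ → ℝ, P = fun z => cR R z / (k + cR R z) := ⟨_, rfl⟩
  obtain ⟨P', hP'⟩ : ∃ P' : ℝ → ℝ, P' = fun z => k * c' z / (k + cR R z) ^ 2 := ⟨_, rfl⟩
  have p0 : ∀ z, 0 ≤ z → 0 < P z := fun z hz => by
    have := hone z hz
    rw [hP]
    positivity
  have p1 : ∀ z, 0 ≤ z → P z < 1 := fun z hz => by
    have := hone z hz
    rw [hP]
    exact (div_lt_one (by linarith)).2 (by linarith)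
  have p2 : ∀ z, 0 ≤ z → (k : ℝ) * th (P z) = cR R z := fun z hz => by
    have := hone z hz
    have h2 : (k : ℝ) + cR R z ≠ 0 := by positivity
    have h3 : 1 - cR R z / (k + cR R z) = k / (k + cR R z) := by
      field_simp
      ring
    rw [hP, th, h3]
    field_simp
  have p3 : ∀ z, 0 ≤ z → HasDerivAt (fun z => Λ (P z)) (e (P z) * P' z) z := fun z hz => by
    have := hone z hz
    have h2 : (k : ℝ) + cR R z ≠ 0 := by positivity
    have h3 : HasDerivAt P (P' z) z := by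
      rw [hP, hP']
      refine ((hc z).div ((hc z).const_add (k : ℝ)) h2).congr_deriv ?_
      ring
    exact (hΛ (P z)).comp z h3
  have p4 : ∀ z, 0 ≤ z → ∀ a, 0 ≤ a → e (P z) ≤ a → e (P z) * P' z ≤ a * c' z / k := by
    intro z hz a ha h2
    have h3 := hone z hz
    have h4 := hc2 z hz
    have h5 : 0 ≤ P' z := by
      rw [hP']
      have : 0 ≤ c' z := by linarith
      positivity
    have h6 : P' z ≤ c' z / k := by
      rw [hP', div_le_div_iff₀ (by positivity) hk0]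
      have h7 : (k : ℝ) * k ≤ (k + cR R z) ^ 2 := by nlinarith
      have h8 := mul_le_mul_of_nonneg_left h7 (show 0 ≤ c' z by linarith)
      linarith
    rw [mul_div_assoc]
    exact (mul_le_mul_of_nonneg_right h2 h5).trans (mul_le_mul_of_nonneg_left h6 ha)
  obtain ⟨G, hG⟩ : ∃ G : ℝ → ℝ, G = fun z => (z * cR R z - I z + δ * cR R z) / k := ⟨_, rfl⟩
  have g1 : ∀ z, HasDerivAt G ((z + δ) * c' z / k) z := fun z => by
    rw [hG]
    refine (((((hasDerivAt_id z).mul (hc z)).sub (hI z)).add ((hc z).const_mul δ)).div_const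
      (k : ℝ)).congr_deriv ?_
    simp only [id]
    ring
  have g2 : ∀ a b, 0 ≤ a → a ≤ b → b ≤ 1 → Λ (P b) - Λ (P a) ≤ G b - G a := fun a b ha hab hb =>
    mvt_le (f := fun z => Λ (P z)) hab (fun x hx => p3 x (ha.trans hx.1)) (fun x _ => g1 x)
      fun x hx => by
        have hx0 : 0 ≤ x := ha.trans hx.1.le
        exact p4 x hx0 _ (by linarith) (he x _ hx0 (hx.2.le.trans hb) (p0 x hx0) (p1 x hx0)
          (p2 x hx0).le)
  have s1 := g2 0 (1 / 2 - ε) le_rfl (by linarith) (by linarith)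
  have s3 := g2 (1 / 2) 1 (by norm_num) (by norm_num) le_rfl
  have s2 := mvt_le (f := fun z => Λ (P z)) (g := fun z => G z - (z - 1 / 2 + ε) ^ 2 / (4 * k))
    (g' := fun z => (z + δ) * c' z / k - (z - 1 / 2 + ε) / (2 * k)) (a := 1 / 2 - ε) (b := 1 / 2)
    (by linarith) (fun x hx => p3 x (by linarith [hx.1]))
    (fun x _ => ((g1 x).sub (((((hasDerivAt_id x).sub_const (1 / 2)).add_const ε).pow 2).div_const
      (4 * (k : ℝ)))).congr_deriv (by simp only [id]; push_cast; ring))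
    fun x hx => by
      have hx0 : 0 ≤ x := by linarith [hx.1]
      have a1 := cR_gap hR hx0 hx.2.le
      have a2 := hw _ (p0 x hx0) (p1 x hx0) ((hone x hx0).trans (p2 x hx0).ge)
        ((p2 x hx0).le.trans (by linarith [hx.2]))
      refine (p4 x hx0 _ (by linarith) a2).trans ?_
      have a3 : (x + δ) * c' x / k - (x - 1 / 2 + ε) / (2 * k) =
          ((x + δ) * c' x - (x - 1 / 2 + ε) * (1 / 2)) / k := by
        field_simp
      rw [a3]
      refine div_le_div_of_nonneg_right ?_ hk0.le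
      have a4 := mul_le_mul_of_nonneg_left (hc2 x hx0) (show 0 ≤ x - 1 / 2 + ε by linarith [hx.1])
      have a5 := mul_nonneg hδ (show 0 ≤ c' x by linarith [hc2 x hx0])
      linarith
  have q0 : P 0 = 1 / (k + 1) := by rw [hP]; simp only [hz0]
  have s0 := mvt_le (f := Λ) (g := fun p => δ * p) (g' := fun _ => δ) (a := 0) (b := P 0)
    (p0 0 le_rfl).le (fun x _ => hΛ x)
    (fun x _ => ((hasDerivAt_id x).const_mul δ).congr_deriv (mul_one δ)) fun x hx => by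
      have a1 : x < 1 := hx.2.trans (p1 0 le_rfl)
      have a2 := hx.2
      rw [q0, lt_div_iff₀ (by linarith)] at a2
      have a3 := he 0 x le_rfl zero_le_one hx.1 a1 (by
        rw [hz0, th, ← mul_div_assoc, div_le_one (by linarith)]
        linarith)
      rwa [zero_add] at a3
  have s4 : δ * P 0 ≤ δ / k := by
    rw [q0, mul_one_div]
    exact div_le_div_of_nonneg_left hδ hk0 (by linarith)
  have q1 : P 1 = cR R 1 / (k + cR R 1) := by rw [hP]
  have q2 : G 1 - G 0 = (cR R 1 - I 1 + δ * cR R 1) / k - δ / k := by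
    rw [hG]
    simp only [hz0, hI0]
    ring
  have hH := hone 1 zero_le_one
  have q3 : cR R 1 / k ≤ cR R 1 / (k + cR R 1) + cR R 1 ^ 2 / k / k := by
    have a1 : cR R 1 / k - cR R 1 / (k + cR R 1) = cR R 1 ^ 2 / k / (k + cR R 1) := by
      field_simp
      ring
    have a2 : cR R 1 ^ 2 / k / (k + cR R 1) ≤ cR R 1 ^ 2 / k / k :=
      div_le_div_of_nonneg_left (by positivity) hk0 (by linarith)
    linarith
  have q4 : ((1 : ℝ) / 2 - 1 / 2 + ε) ^ 2 / (4 * k) = ε ^ 2 / 4 / k := by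
    field_simp
    ring
  have q5 : ((1 : ℝ) / 2 - ε - 1 / 2 + ε) ^ 2 / (4 * k) = 0 := by
    rw [show (1 : ℝ) / 2 - ε - 1 / 2 + ε = 0 by ring]
    simp
  rw [← hI1, ← q1]
  rw [← q1] at q3
  simp only [q4, q5, hΛ0, mul_zero, sub_zero] at s0 s2
  simp only [sub_div, add_div] at q2 ⊢
  linarith

/-- `hasSum_zeta_two`: choose `R ≥ 2` with finite sum above `π ^ 2 / 6 - ε ^ 2 / 16`, then
`δ ≤ ε ^ 2 / (16 * H)`, `k0 ≥ 16 * H ^ 2 / ε ^ 2`, `g = π ^ 2 / 6 + ε ^ 2 / 16`. -/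
theorem calc_main {ε : ℝ} (h0 : 0 < ε) (h1 : ε ≤ 1 / 20) : ∃ (R k0 : ℕ) (δ g : ℝ),
    2 ≤ R ∧ 1 ≤ k0 ∧ 0 < δ ∧ δ ≤ ε ∧ δ ≤ 1 / 10 ^ 6 ∧ Real.pi ^ 2 / 6 < g ∧
      ∀ k, k0 ≤ k → CalcSpec R k δ ε g := by
  have hε : 0 < ε ^ 2 / 16 := by positivity
  have z1 := (hasSum_nat_add_iff' 1).2 hasSum_zeta_two
  have z2 : Filter.Tendsto (fun R : ℕ => ∑ r ∈ range R, 1 / ((r : ℝ) + 1) ^ 2) Filter.atTop
      (nhds (Real.pi ^ 2 / 6)) := by
    simpa using z1.tendsto_sum_nat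
  obtain ⟨R, hR1, hR⟩ := ((z2.eventually (lt_mem_nhds
    (show Real.pi ^ 2 / 6 - ε ^ 2 / 16 < Real.pi ^ 2 / 6 by linarith))).and
      (Filter.eventually_ge_atTop 2)).exists
  have hH := one_le_cR hR (zero_le_one (α := ℝ))
  obtain ⟨δ, d0, d1, d2, d3⟩ : ∃ δ : ℝ, 0 < δ ∧ δ ≤ ε ∧ δ ≤ 1 / 10 ^ 6 ∧
      δ ≤ ε ^ 2 / 16 / cR R 1 :=
    ⟨min ε (min (1 / 10 ^ 6) (ε ^ 2 / 16 / cR R 1)),
      lt_min h0 (lt_min (by norm_num) (by positivity)), min_le_left _ _,
      (min_le_right _ _).trans (min_le_left _ _), (min_le_right _ _).trans (min_le_right _ _)⟩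
  obtain ⟨k0, hk0⟩ := exists_nat_ge (cR R 1 ^ 2 / (ε ^ 2 / 16))
  refine ⟨R, k0 + 1, δ, Real.pi ^ 2 / 6 + ε ^ 2 / 16, hR, by omega, d0, d1, d2, by linarith,
    fun k hk Λ e a1 a2 a3 a4 => ?_⟩
  have hk' : (k0 : ℝ) + 1 ≤ k := by exact_mod_cast hk
  have hk1 : (0 : ℝ) < k := by linarith [(Nat.cast_nonneg k0 : (0 : ℝ) ≤ k0)]
  refine (calc_path hR (by omega) d0.le h0 h1 Λ e a1 a2 a3 a4).trans (sub_le_sub_left
    (div_le_div_of_nonneg_right ?_ hk1.le) _)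
  rw [le_div_iff₀ (by linarith)] at d3
  rw [div_le_iff₀ hε] at hk0
  have b1 : cR R 1 ^ 2 / k ≤ ε ^ 2 / 16 := by
    rw [div_le_iff₀ hk1]
    have := mul_le_mul_of_nonneg_right (show (k0 : ℝ) ≤ k by linarith) hε.le
    linarith
  linarith

end Vale.Agent.P336C
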