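import Vale.Agent.P336C.Defs

/-! Counting triples. -/

namespace Vale.Agent.P336C

open Finset Vale.Agent.P151

variable {ι : Type} [Fintype ι] [DecidableEq ι] {D : Finset (Finset ι)} {k K L : ℕ} {p δ : ℝ}
  {Q : ι → Finset ι} {Q2 : ι → ι → Finset ι}

theorem mem_inn {a b : ι} : a ∈ inn Q b ↔ b ∈ Q a := by simp [inn]

theorem mem_trip {H : Finset ι} {a b l : ι} : (a, b, l) ∈ trip Q H ↔
    b ∈ Q a ∧ b ∉ H ∧ l ∈ Q b ∧ l ≠ a ∧ (l ∈ Q a → l ∉ H ∧ b ∈ Q l) := by simp [trip]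

theorem inn_le {b : ι} (hb : b ∉ hub Q K k) : (inn Q b).card ≤ K * k := by
  simpa [hub] using hb

/-- Sum over edges, by source or by target. -/
theorem sum_edges (Q : ι → Finset ι) (f : ι → ι → ℝ) :
    ∑ a, ∑ b ∈ Q a, f a b = ∑ b, ∑ a ∈ inn Q b, f a b := by
  exact sum_comm' fun a b => by simp [mem_inn]

theorem comb_out (hQ : ∀ a, (Q a).card ≤ k) :
    ∑ a, ∑ _b ∈ Q a, (1 : ℝ) ≤ Fintype.card ι * k := by
  refine (sum_le_sum (g := fun _ => (k : ℝ)) fun a _ => ?_).trans_eq (by simp)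
  simpa using hQ a

theorem hub_card (hk : 1 ≤ k) (hQ : ∀ a, (Q a).card ≤ k) :
    (hub Q K k).card * K ≤ Fintype.card ι := by
  have h1 := comb_out hQ
  rw [sum_edges] at h1
  have h2 : ∑ _b ∈ hub Q K k, ((K : ℝ) * k) ≤ ∑ b, ∑ _a ∈ inn Q b, (1 : ℝ) := by
    refine (sum_le_sum fun b hb => ?_).trans (sum_le_sum_of_subset_of_nonneg (subset_univ _)
      fun b _ _ => by positivity)
    rw [sum_const, nsmul_eq_mul, mul_one]
    exact_mod_cast (mem_filter.1 hb).2.le
  rw [sum_const, nsmul_eq_mul, ← mul_assoc] at h2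
  have hk' : (0 : ℝ) < k := by exact_mod_cast hk
  exact_mod_cast le_of_mul_le_mul_right (h2.trans h1) hk'

theorem trip_le (hQ : ∀ a, (Q a).card ≤ k) (H : Finset ι) :
    ((trip Q H).card : ℝ) ≤ Fintype.card ι * k ^ 2 := by
  have h1 : trip Q H ⊆ univ.biUnion fun a => (Q a).biUnion fun b =>
      (Q b).image fun l => (a, b, l) := by
    rintro ⟨a, b, l⟩ h
    obtain ⟨h1, -, h2, -⟩ := mem_trip.1 h
    exact mem_biUnion.2 ⟨a, mem_univ _, mem_biUnion.2 ⟨b, h1, mem_image_of_mem _ h2⟩⟩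
  have h2 := (card_le_card h1).trans (card_biUnion_le_card_mul _ _ (k ^ 2) fun a _ =>
    (card_biUnion_le_card_mul _ _ k fun b _ => card_image_le.trans (hQ b)).trans
      (by rw [sq]; exact Nat.mul_le_mul_right _ (hQ a)))
  rw [card_univ] at h2
  exact_mod_cast h2

theorem mm_card (hc : Cov D k Q Q2) (hk : 1 ≤ k) (a l : ι) : (mm Q Q2 a l).card ≤ 3 * k := by
  have h1 := (hc.one a).1
  have h2 : (if l ∈ Q a then Q2 a l else ∅).card ≤ k := by
    split_ifs with h
    · exact (hc.two a l h).1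
    · simp
  have h3 := card_union_le (Q a) (if l ∈ Q a then Q2 a l else ∅)
  have h4 := card_insert_le a (Q a ∪ if l ∈ Q a then Q2 a l else ∅)
  unfold mm
  omega

theorem comb_pt (Q : ι → Finset ι) (H : Finset ι) {a b : ι} (hb : b ∈ Q a \ H) :
    ((Q b).card : ℝ) ≤ (univ.filter fun l => (a, b, l) ∈ trip Q H).card + 1 + (Q a ∩ H).card +
      (if a ∈ Q b then (((Q b).filter fun l => b ∉ Q l).card : ℝ) else 0) +
      if a ∉ Q b then ((Q b ∩ Q a).card : ℝ) else 0 := by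
  obtain ⟨h1, h2⟩ := mem_sdiff.1 hb
  have key : ∀ X : Finset ι, (∀ l ∈ Q b, l ∈ Q a → b ∉ Q l → l ∈ X) → ((Q b).card : ℝ) ≤
      (univ.filter fun l => (a, b, l) ∈ trip Q H).card + 1 + (Q a ∩ H).card + X.card := by
    intro X hX
    have h3 : Q b ⊆ (univ.filter fun l => (a, b, l) ∈ trip Q H) ∪ {a} ∪ (Q a ∩ H) ∪ X := by
      intro l hl
      have h4 := hX l hl
      simp only [mem_union, mem_filter, mem_univ, true_and, mem_trip, mem_singleton, mem_inter]
      tauto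
    have h4 := (card_le_card h3).trans ((card_union_le _ _).trans (Nat.add_le_add_right
      ((card_union_le _ _).trans (Nat.add_le_add_right (card_union_le _ _) _)) _))
    rw [card_singleton] at h4
    exact_mod_cast h4
  by_cases h : a ∈ Q b
  · rw [if_pos h, if_neg (not_not.2 h), add_zero]
    exact key _ fun l h3 _ h4 => mem_filter.2 ⟨h3, h4⟩
  · rw [if_neg h, if_pos h, add_zero]
    exact key _ fun l h3 h4 _ => mem_inter.2 ⟨h3, h4⟩

theorem comb_trip (Q : ι → Finset ι) (H : Finset ι) :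
    ∑ a, ∑ b ∈ Q a, ((univ.filter fun l => (a, b, l) ∈ trip Q H).card : ℝ) ≤ (trip Q H).card := by
  have e : ((trip Q H).card : ℝ) = ∑ x : ι × ι × ι, if x ∈ trip Q H then 1 else 0 := by simp
  rw [e, Fintype.sum_prod_type]
  refine sum_le_sum fun a _ => ?_
  rw [Fintype.sum_prod_type]
  simp only [← natCast_card_filter]
  exact sum_le_sum_of_subset_of_nonneg (subset_univ _) fun _ _ _ => Nat.cast_nonneg _

theorem comb_rec (hQ : ∀ a, (Q a).card ≤ k) : ∑ a, ∑ b ∈ Q a,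
    (if a ∈ Q b then (((Q b).filter fun l => b ∉ Q l).card : ℝ) else 0) ≤
      Fintype.card ι * k ^ 2 / 4 := by
  rw [sum_edges]
  refine (sum_le_sum (g := fun _ => (k : ℝ) ^ 2 / 4) fun b _ => ?_).trans_eq
    (by rw [sum_const, card_univ, nsmul_eq_mul, mul_div_assoc])
  have e : (inn Q b).filter (fun a => a ∈ Q b) = (Q b).filter fun a => b ∈ Q a := by
    ext a
    simp only [mem_filter, mem_inn, and_comm]
  rw [← sum_filter, sum_const, nsmul_eq_mul, e]
  have h1 : (((Q b).filter fun a => b ∈ Q a).card : ℝ) +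
      ((Q b).filter fun l => b ∉ Q l).card ≤ k := by
    have h2 := card_filter_add_card_filter_not (s := Q b) fun a => b ∈ Q a
    exact_mod_cast h2.trans_le (hQ b)
  have h3 := pow_le_pow_left₀ (by positivity) h1 2
  nlinarith [sq_nonneg ((((Q b).filter fun a => b ∈ Q a).card : ℝ) -
    ((Q b).filter fun l => b ∉ Q l).card)]

/-- All triples with `b ∈ Q a \ H`, `l ∈ Q b` lie in `trip Q H` or in one of four classes:
`l = a` (at most `n * k`); `l ∈ Q a ∩ H` (at most `k` choices of `b`); `a ∈ Q b`, `b ∈ Q a`,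
`l ∈ Q b`, `b ∉ Q l` (for each `b` at most `r * (|Q b| - r) ≤ k ^ 2 / 4`, where `r` is the number of
`a ∈ Q b` with `b ∈ Q a`); `a ∉ Q b`, `l ∈ Q b ∩ Q a`. -/
theorem trip_comb (hQ : ∀ a, (Q a).card ≤ k) (H : Finset ι) :
    ∑ a, ∑ b ∈ Q a \ H, ((Q b).card : ℝ) ≤ (trip Q H).card + Fintype.card ι * k +
      k * ∑ a, ((Q a ∩ H).card : ℝ) + Fintype.card ι * k ^ 2 / 4 +
        ∑ a, ∑ b ∈ (Q a).filter fun b => a ∉ Q b, ((Q b ∩ Q a).card : ℝ) := by
  refine (sum_le_sum fun a _ => (sum_le_sum fun b hb => comb_pt Q H hb).trans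
    (sum_le_sum_of_subset_of_nonneg sdiff_subset fun b _ _ => by positivity)).trans ?_
  simp only [sum_add_distrib]
  refine add_le_add (add_le_add (add_le_add (add_le_add (comb_trip Q H) (comb_out hQ)) ?_)
    (comb_rec hQ)) (sum_congr rfl fun a _ => (sum_filter _ _).symm).le
  rw [mul_sum]
  refine sum_le_sum fun a _ => ?_
  rw [sum_const, nsmul_eq_mul]
  exact mul_le_mul_of_nonneg_right (by exact_mod_cast hQ a) (Nat.cast_nonneg _)

end Vale.Agent.P336C
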