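import Vale.Agent.P336C.TStar
import Vale.Agent.P336C.Comb

/-! Many triples. -/

namespace Vale.Agent.P336C

open Finset Vale.Agent.P151

variable {ι : Type} [Fintype ι] [DecidableEq ι] {D : Finset (Finset ι)} {k K L : ℕ} {p δ : ℝ}
  {Q : ι → Finset ι} {Q2 : ι → ι → Finset ι}

theorem dfc_nonneg (hs : Setup D k p δ) : 0 ≤ dfc p δ D := by
  refine sum_nonneg fun a _ => sub_nonneg.2 (hs.le_u (singleton_nonempty a) (by simp) ∅)

/-- A nonnegative weight on targets outside the hubs: each is counted at most `K * k` times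
(`sum_edges`, `inn_le`). -/
theorem sum_nonhub (f : ι → ℝ) (hf : ∀ b, 0 ≤ f b) :
    ∑ a, ∑ b ∈ Q a \ hub Q K k, f b ≤ K * k * ∑ b, f b := by
  have h1 : ∀ a, ∑ b ∈ Q a \ hub Q K k, f b = ∑ b ∈ Q a, if b ∉ hub Q K k then f b else 0 := by
    intro a
    rw [sdiff_eq_filter, sum_filter]
  simp only [h1]
  rw [sum_edges Q fun _ b => if b ∉ hub Q K k then f b else 0, mul_sum]
  refine sum_le_sum fun b _ => ?_
  rw [sum_const, nsmul_eq_mul]
  split_ifs with h
  · rw [mul_zero]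
    exact mul_nonneg (by positivity) (hf b)
  · exact mul_le_mul_of_nonneg_right (by exact_mod_cast inn_le h) (hf b)

/-- The last class of `trip_comb`. -/
theorem card_last (hs : Setup D k p δ) (hc : Cov D k Q Q2) :
    ∑ a, ∑ b ∈ (Q a).filter fun b => a ∉ Q b, ((Q b ∩ Q a).card : ℝ) ≤
      3 * k * (k * (Fintype.card ι / 100 + 10 ^ 10 * dfc p δ D)) := by
  have h : ∀ a, ∑ b ∈ (Q a).filter fun b => a ∉ Q b, ((Q b ∩ Q a).card : ℝ) ≤
      3 * k * (k * (1 / 100 + 10 ^ 10 * (1 / 2 + δ - sv p D {a} ∅))) := by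
    intro a
    have h2 : ∀ b : ι, (insert b {a} : Finset ι).card ≤ 2 := fun b => card_le_two
    calc _ ≤ ∑ b ∈ (Q a).filter fun b => a ∉ Q b,
          3 * k * (1 / 2 + δ - sv p D (insert b {a}) (Q a)) := by
          refine sum_le_sum fun b hb => ovl hs (insert_nonempty _ _) (h2 b)
            ⟨(hc.one b).1, ?_, fun T hT h => (hc.one b).2.2 T hT ?_⟩ (Q a)
          · exact disjoint_insert_left.2 ⟨disjoint_singleton_left.1 (hc.one b).2.1,
              disjoint_singleton_left.2 (mem_filter.1 hb).2⟩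
          · exact singleton_subset_iff.2 (h (mem_insert_self _ _))
      _ ≤ ∑ b ∈ Q a, 3 * k * (1 / 2 + δ - sv p D (insert b {a}) (Q a)) :=
          sum_le_sum_of_subset_of_nonneg (filter_subset _ _) fun b _ _ =>
            mul_nonneg (by positivity) (sub_nonneg.2
              (hs.le_u (insert_nonempty _ _) ((h2 b).trans (by norm_num)) _))
      _ ≤ _ := by
          rw [← mul_sum]
          exact mul_le_mul_of_nonneg_left (tstar hs (singleton_nonempty a) (by simp) (hc.one a)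
            ((hc.one a).1.trans (by omega))) (by positivity)
  refine (sum_le_sum fun a _ => h a).trans (le_of_eq ?_)
  rw [← mul_sum, ← mul_sum, sum_add_distrib, ← mul_sum, sum_const, card_univ, nsmul_eq_mul, dfc,
    mul_one_div]

/-- `trip_comb`. Left side: `|Q b| ≥ k - 3 * k * δ b` (`t1`), `sum_nonhub`, and
`∑ a, |Q a \ H| ≥ n * k - 3 * k * Δ - n * k / 8`. Last class: if `a ∉ Q b` then `Q b` covers
`insert b {a}`, so `ovl` with `M = Q a` and then `tstar` at the root `a` give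
`3 * k ^ 2 * (n / 100 + 10 ^ 10 * Δ)`. `7 / 8 - 1 / 1000 - 1 / 8 - 1 / 4 - 3 / 100 ≥ 46 / 100`. -/
theorem trip_card (hs : Setup D k p δ) (hc : Cov D k Q Q2)
    (hH : ∑ a, ((Q a ∩ hub Q K k).card : ℝ) ≤ Fintype.card ι * k / 8) :
    (46 / 100 * Fintype.card ι - (3 * K + 4 * 10 ^ 10) * dfc p δ D) * k ^ 2 ≤
      (trip Q (hub Q K k)).card := by
  have hQ : ∀ a, (Q a).card ≤ k := fun a => (hc.one a).1
  have hk : (1000 : ℝ) ≤ k := by exact_mod_cast hs.kk
  have hd : ∀ a : ι, 0 ≤ 1 / 2 + δ - sv p D {a} ∅ := fun a =>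
    sub_nonneg.2 (hs.le_u (singleton_nonempty a) (by simp) ∅)
  have h1 : ∀ a, (k : ℝ) - 3 * k * (1 / 2 + δ - sv p D {a} ∅) ≤ (Q a).card := fun a => by
    linarith [(t1 hs (singleton_nonempty a) (by simp) (hc.one a)).2]
  have h2 := trip_comb hQ (hub Q K k)
  have h3 := sum_nonhub (Q := Q) (K := K) (k := k) _ hd
  have h4 : ∑ a, ((k : ℝ) - 3 * k * (1 / 2 + δ - sv p D {a} ∅)) ≤ ∑ a, ((Q a).card : ℝ) :=
    sum_le_sum fun a _ => h1 a
  rw [sum_sub_distrib, ← mul_sum, sum_const, card_univ, nsmul_eq_mul] at h4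
  have h5 : ∑ a, ((Q a).card : ℝ) =
      ∑ a, ((Q a \ hub Q K k).card : ℝ) + ∑ a, ((Q a ∩ hub Q K k).card : ℝ) := by
    rw [← sum_add_distrib]
    exact sum_congr rfl fun a _ => by exact_mod_cast (card_sdiff_add_card_inter _ _).symm
  have h6 : (∑ a, ((Q a \ hub Q K k).card : ℝ)) * k -
      3 * k * ∑ a, ∑ b ∈ Q a \ hub Q K k, (1 / 2 + δ - sv p D {b} ∅) ≤
      ∑ a, ∑ b ∈ Q a \ hub Q K k, ((Q b).card : ℝ) := by
    rw [sum_mul, mul_sum, ← sum_sub_distrib]
    refine sum_le_sum fun a _ => ?_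
    rw [mul_sum, ← nsmul_eq_mul, ← sum_const, ← sum_sub_distrib]
    exact sum_le_sum fun b _ => h1 b
  have h7 := card_last hs hc
  have h8 := dfc_nonneg hs
  have hn : (0 : ℝ) ≤ Fintype.card ι := Nat.cast_nonneg _
  change _ ≤ _ * dfc p δ D at h3
  change _ - _ * dfc p δ D ≤ _ at h4
  have hk0 : (0 : ℝ) ≤ k := by linarith
  have e1 := mul_le_mul_of_nonneg_left h3 hk0
  have e2 := mul_le_mul_of_nonneg_left (h4.trans_eq h5) hk0
  have e3 := mul_le_mul_of_nonneg_left hH hk0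
  have e4 := mul_le_mul_of_nonneg_left hk (mul_nonneg hn hk0)
  have e5 := mul_nonneg h8 (mul_nonneg hk0 hk0)
  have e6 := mul_nonneg hn (mul_nonneg hk0 hk0)
  linarith

end Vale.Agent.P336C
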