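import Vale.Agent.P336C.Prob
import Vale.Agent.P336C.CR

/-! From a Kraft inequality to a bound on the number of points. -/

namespace Vale.Agent.P336C

open Finset Vale.Agent.P151

variable {ι : Type} [Fintype ι] [DecidableEq ι]

theorem frame_one (lam : Finset ι → ℝ) (H : Finset ι) {p : ℝ} (h0 : 0 < p) (h1 : p < 1) :
    Real.exp (-(Fintype.card ι * Real.log 2 * (1 - p) + H.card * (p * Real.log 2 + th p) +
      E p fun S => lam (S \ H))) ≤
      E p fun S => Real.exp (-((Fintype.card ι - S.card) * Real.log 2 + lam S)) := by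
  have a1 := E_pin (p := p) (empty_subset H)
    fun S => Real.exp (-((Fintype.card ι - S.card) * Real.log 2 + lam S))
  rw [card_empty, pow_zero, one_mul, sdiff_empty] at a1
  have a2 := E_jensen h0.le h1.le
    fun S : Finset ι => -((Fintype.card ι - (S \ H).card) * Real.log 2 + lam (S \ H))
  have a3 : E p (fun S : Finset ι =>
      -((Fintype.card ι - (S \ H).card) * Real.log 2 + lam (S \ H))) =
      p * (Fintype.card ι - H.card) * Real.log 2 - Fintype.card ι * Real.log 2 -
        E p fun S => lam (S \ H) := by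
    have b1 : (Hᶜ.card : ℝ) = Fintype.card ι - H.card := by
      rw [card_compl, Nat.cast_sub (card_le_univ H)]
    rw [← b1, ← E_card, ← E_mul_right, ← E_const (p := p) (ι := ι) (Fintype.card ι * Real.log 2),
      ← E_sub, ← E_sub]
    congr 1
    funext S
    rw [sdiff_eq_inter_compl]
    ring
  refine le_trans ?_ (E_mono h0.le h1.le (f := fun S => ind (S ∩ H = ∅) *
    Real.exp (-((Fintype.card ι - (S \ H).card) * Real.log 2 + lam (S \ H)))) fun S => ?_)
  · rw [a1]
    refine le_trans (le_of_eq ?_) (mul_le_mul (exp_th_le h0.le h1 H.card) a2 (Real.exp_pos _).le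
      (pow_nonneg (sub_nonneg.2 h1.le) _))
    rw [← Real.exp_add, a3]
    congr 1
    ring
  · by_cases h : S ∩ H = ∅
    · rw [ind_pos h, one_mul, sdiff_eq_self_of_disjoint (disjoint_iff_inter_eq_empty.2 h)]
    · rw [ind_neg h, zero_mul]
      exact (Real.exp_pos _).le

/-- With `φ x S = (n - |S|) * log 2 + lam x S`: Kraft gives `∑ x, exp (-φ x S) ≤ 1` for each `S`,
so `∑ x, E (exp (-φ x S)) ≤ 1`. Next `exp (-φ x S) ≥ ind (S ∩ H x = ∅) * exp (-φ x (S \ H x))`,
`E_pin` with `T = ∅`, `exp_th_le`, `E_jensen`, `E_card` (`S \ H = S ∩ Hᶜ`). So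
`∑ x, exp (-ψ x) ≤ 1` where `ψ x` is the summand on the right; finish with
`exp (-ψ x) ≥ (1 - ψ x + log |A|) / |A|` (`Real.add_one_le_exp`). -/
theorem frame (A : Finset (ι → Bool)) (hA : A.Nonempty) (lam : (ι → Bool) → Finset ι → ℝ)
    (H : (ι → Bool) → Finset ι)
    (kraft : ∀ S : Finset ι, ∑ x ∈ A, Real.exp (-lam x S) ≤ 2 ^ (Fintype.card ι - S.card))
    {p : ℝ} (h0 : 0 < p) (h1 : p < 1) :
    A.card * Real.log A.card ≤ ∑ x ∈ A, (Fintype.card ι * Real.log 2 * (1 - p) +
      (H x).card * (p * Real.log 2 + th p) + E p fun S => lam x (S \ H x)) := by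
  have s1 : ∀ S : Finset ι, ∑ x ∈ A,
      Real.exp (-((Fintype.card ι - S.card) * Real.log 2 + lam x S)) ≤ 1 := by
    intro S
    have e1 : Real.exp ((Fintype.card ι - S.card) * Real.log 2) =
        2 ^ (Fintype.card ι - S.card) := by
      rw [← Nat.cast_sub (card_le_univ S), Real.exp_nat_mul, Real.exp_log two_pos]
    have e2 : ∀ x, Real.exp (-((Fintype.card ι - S.card) * Real.log 2 + lam x S)) =
        Real.exp (-lam x S) / 2 ^ (Fintype.card ι - S.card) := fun x => by
      rw [← e1, ← Real.exp_sub]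
      congr 1
      ring
    simp only [e2]
    rw [← sum_div, div_le_one (by positivity)]
    exact kraft S
  have s2 : ∑ x ∈ A, E p (fun S =>
      Real.exp (-((Fintype.card ι - S.card) * Real.log 2 + lam x S))) ≤ 1 := by
    rw [← E_sum]
    exact (E_mono h0.le h1.le s1).trans (E_const 1).le
  have s3 := (sum_le_sum fun x _ => frame_one (lam x) (H x) h0 h1).trans s2
  have hc : (0 : ℝ) < A.card := Nat.cast_pos.2 hA.card_pos
  have s4 : ∀ t : ℝ, Real.log A.card + 1 - t ≤ A.card * Real.exp (-t) := fun t => by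
    have := Real.add_one_le_exp (Real.log A.card + -t)
    rw [Real.exp_add, Real.exp_log hc] at this
    linarith
  have s5 := sum_le_sum fun x (_ : x ∈ A) => s4 (Fintype.card ι * Real.log 2 * (1 - p) +
      (H x).card * (p * Real.log 2 + th p) + E p fun S => lam x (S \ H x))
  rw [← mul_sum, sum_sub_distrib, sum_const, nsmul_eq_mul] at s5
  have s6 := mul_le_mul_of_nonneg_left s3 hc.le
  linarith

/-- Apply `hcalc` to `Λ p = (∑ x ∈ A, E p (fun S => lam x (S \ H x))) / (|A| * (log 2 * n))`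
(`russo` for each `x`, `choose`; `E_zero`), then `frame` at `p = H / (k + H)`, `H = cR R 1 ≥ 1`,
where `th p = H / k` and `p ≤ H / k`. -/
theorem finish {R k : ℕ} {δ ε g h : ℝ} (hk : 1 ≤ k) (hR : 2 ≤ R) (hcalc : CalcSpec R k δ ε g)
    (hn : 0 < Fintype.card ι) (A : Finset (ι → Bool)) (hA : A.Nonempty)
    (lam : (ι → Bool) → Finset ι → ℝ) (H : (ι → Bool) → Finset ι)
    (kraft : ∀ S : Finset ι, ∑ x ∈ A, Real.exp (-lam x S) ≤ 2 ^ (Fintype.card ι - S.card))
    (h0 : ∀ x ∈ A, lam x ∅ = 0) (hH : ∀ x ∈ A, ((H x).card : ℝ) ≤ h)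
    (h1 : ∀ z p : ℝ, 0 ≤ z → z ≤ 1 → 0 < p → p < 1 → (k : ℝ) * th p ≤ cR R z →
      ∑ x ∈ A, drift (lam x) (H x) p ≤ A.card * (Real.log 2 * p * Fintype.card ι * (z + δ)))
    (h2 : ∀ p : ℝ, 0 < p → p < 1 → 1 ≤ (k : ℝ) * th p → (k : ℝ) * th p ≤ cR R (1 / 2) →
      ∑ x ∈ A, drift (lam x) (H x) p ≤ A.card * (Real.log 2 * p * Fintype.card ι * (1 / 2 - ε))) :
    Real.log A.card ≤
      Real.log 2 * (Fintype.card ι - g * Fintype.card ι / k) + 2 * h * cR R 1 / k := by
  choose e he he' using fun x => russo fun S => lam x (S \ H x)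
  have hc : (0 : ℝ) < A.card := Nat.cast_pos.2 hA.card_pos
  have hn' : (0 : ℝ) < Fintype.card ι := Nat.cast_pos.2 hn
  have hk' : (0 : ℝ) < k := Nat.cast_pos.2 hk
  have l2 : 0 < Real.log 2 := Real.log_pos one_lt_two
  have l3 : Real.log 2 ≤ 1 := by linarith [Real.log_le_sub_one_of_pos two_pos]
  have c0 : 0 < A.card * (Real.log 2 * Fintype.card ι) := by positivity
  have hb : ∀ p t : ℝ, 0 < p → ∑ x ∈ A, drift (lam x) (H x) p ≤
      A.card * (Real.log 2 * p * Fintype.card ι * t) →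
      (∑ x ∈ A, e x p) / (A.card * (Real.log 2 * Fintype.card ι)) ≤ t := by
    intro p t hp h3
    have h4 : ∑ x ∈ A, drift (lam x) (H x) p = p * ∑ x ∈ A, e x p := by
      rw [mul_sum]
      exact sum_congr rfl fun x _ => (he' x p).symm
    rw [div_le_iff₀ c0]
    refine le_of_mul_le_mul_left ?_ hp
    rw [← h4]
    exact h3.trans (le_of_eq (by ring))
  have hΛ := hcalc (fun p => (∑ x ∈ A, E p fun S => lam x (S \ H x)) /
      (A.card * (Real.log 2 * Fintype.card ι)))
    (fun p => (∑ x ∈ A, e x p) / (A.card * (Real.log 2 * Fintype.card ι)))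
    (fun p => (HasDerivAt.fun_sum fun x _ => he x p).div_const _) ?_
    (fun z p a1 a2 a3 a4 a5 => hb p _ a3 (h1 z p a1 a2 a3 a4 a5))
    (fun p a1 a2 a3 a4 => hb p _ a1 (h2 p a1 a2 a3 a4))
  swap
  · rw [sum_eq_zero, zero_div]
    intro x hx
    rw [E_zero, empty_sdiff, h0 x hx]
  have r1 : 1 ≤ cR R 1 := one_le_cR hR zero_le_one
  generalize cR R 1 = c at hΛ r1 ⊢
  have p0 : 0 < c / (k + c) := by positivity
  have p1 : c / (k + c) < 1 := by
    rw [div_lt_one (by positivity)]
    linarith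
  have t1 : th (c / (k + c)) = c / k := by
    have t0 : 1 - c / (k + c) = k / (k + c) := by
      field_simp
      ring
    unfold th
    rw [t0, div_div_div_cancel_right₀ (by positivity)]
  have t2 : c / (k + c) ≤ c / k := (le_th p0.le p1).trans t1.le
  have f1 := frame A hA lam H kraft p0 p1
  rw [t1] at f1
  generalize c / (k + c) = q at hΛ p0 p1 t2 f1
  rw [div_le_iff₀ c0] at hΛ
  have t3 : 0 ≤ q * Real.log 2 + c / k := by positivity
  have t4 : q * Real.log 2 + c / k ≤ 2 * c / k := by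
    have := mul_le_of_le_one_right p0.le l3
    rw [mul_div_assoc]
    linarith
  have hh : 0 ≤ h := by
    obtain ⟨x, hx⟩ := hA
    exact (Nat.cast_nonneg _).trans (hH x hx)
  have f2 : ∑ x ∈ A, ((H x).card : ℝ) * (q * Real.log 2 + c / k) ≤
      A.card * (h * (2 * c / k)) := by
    rw [← nsmul_eq_mul, ← sum_const]
    exact sum_le_sum fun x hx => mul_le_mul (hH x hx) t4 t3 hh
  rw [sum_add_distrib, sum_add_distrib, sum_const, nsmul_eq_mul] at f1
  refine le_of_mul_le_mul_left ?_ hc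
  refine f1.trans ((add_le_add (add_le_add le_rfl f2) hΛ).trans (le_of_eq ?_))
  ring

end Vale.Agent.P336C
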