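import Vale.Agent.P336C.Prob

/-! Kraft inequalities. -/

namespace Vale.Agent.P336C

open Finset Vale.Agent.P151

variable {ι : Type} [Fintype ι] [DecidableEq ι]

theorem mem_df {x y : ι → Bool} {i : ι} : i ∈ df x y ↔ x i ≠ y i := by simp [df]

theorem df_self (x : ι → Bool) : df x x = ∅ := by simp [df]

theorem kraft_sub {x y : ι → Bool} {S : Finset ι} : df x y ⊆ S ↔ ∀ i, i ∉ S → x i = y i :=
  ⟨fun h _ hi => by_contra fun h' => hi (h (mem_df.2 h')),
    fun h i hi => by_contra fun h' => mem_df.1 hi (h i h')⟩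

theorem df_inj (x : ι → Bool) : Function.Injective (df x) := by
  intro y z h
  funext i
  have : x i ≠ y i ↔ x i ≠ z i := by rw [← mem_df, ← mem_df, h]
  revert this
  cases x i <;> cases y i <;> cases z i <;> simp

theorem cnt_fam (A : Finset (ι → Bool)) (x : ι → Bool) (S : Finset ι) :
    cnt (fam A x) S = ((A.filter fun y => df x y ⊆ S).card : ℝ) := by
  rw [cnt, fam, filter_image, card_image_of_injective _ (df_inj x)]

theorem alive_fam {A : Finset (ι → Bool)} {x : ι → Bool} {P S : Finset ι} :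
    Alive (fam A x) P S ↔ ∃ y ∈ A, P ⊆ df x y ∧ df x y ⊆ S ∪ P := by
  simp [Alive, fam]

theorem empty_mem_fam {A : Finset (ι → Bool)} {x : ι → Bool} (hx : x ∈ A) : ∅ ∈ fam A x :=
  Finset.mem_image.2 ⟨x, hx, df_self x⟩

/-- Group the points by `fun i => if i ∈ S then false else x i`; there are at most
`2 ^ (n - |S|)` groups (inject in the powerset of `Sᶜ`). -/
theorem kraft_global (A : Finset (ι → Bool)) (lam : (ι → Bool) → Finset ι → ℝ)
    (h : ∀ (S : Finset ι) (y : ι → Bool),
      ∑ x ∈ A.filter fun x => df y x ⊆ S, Real.exp (-lam x S) ≤ 1) (S : Finset ι) :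
    ∑ x ∈ A, Real.exp (-lam x S) ≤ 2 ^ (Fintype.card ι - S.card) := by
  set π : (ι → Bool) → ι → Bool := fun x i => if i ∈ S then false else x i with hπ
  rw [← sum_fiberwise_of_maps_to (g := π) (t := A.image π) fun x hx => mem_image_of_mem π hx]
  have b1 : ∀ y ∈ A.image π, ∑ x ∈ A.filter fun x => π x = y, Real.exp (-lam x S) ≤ 1 := by
    intro y _
    refine le_trans (sum_le_sum_of_subset_of_nonneg (fun x hx => ?_)
      fun _ _ _ => (Real.exp_pos _).le) (h S y)
    refine mem_filter.2 ⟨(mem_filter.1 hx).1, kraft_sub.2 fun i hi => ?_⟩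
    rw [← (mem_filter.1 hx).2]
    exact if_neg hi
  have b2 : (A.image π).card ≤ 2 ^ (Fintype.card ι - S.card) := by
    rw [← card_compl, ← card_powerset]
    refine card_le_card_of_injOn (df fun _ => false) (fun y hy => ?_) (df_inj _).injOn
    obtain ⟨x, -, rfl⟩ := mem_image.1 (mem_coe.1 hy)
    refine mem_coe.2 (mem_powerset.2 (kraft_sub.2 fun i hi => ?_))
    exact (if_pos (not_not.1 fun h' => hi (mem_compl.2 h'))).symm
  refine (sum_le_card_nsmul _ _ _ b1).trans ?_
  rw [nsmul_eq_mul, mul_one]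
  exact_mod_cast b2

/-- Each term is the inverse of the size of the fibre. -/
theorem kraft_log (A : Finset (ι → Bool)) (S : Finset ι) (y : ι → Bool) :
    ∑ x ∈ A.filter fun x => df y x ⊆ S, Real.exp (-Real.log (cnt (fam A x) S)) ≤ 1 := by
  set F := A.filter fun x => df y x ⊆ S with hF
  have e : ∀ x ∈ F, Real.exp (-Real.log (cnt (fam A x) S)) = ((F.card : ℝ))⁻¹ := by
    intro x hx
    have h1 := kraft_sub.1 (mem_filter.1 hx).2
    have e1 : (A.filter fun z => df x z ⊆ S) = F := by
      refine filter_congr fun z _ => ?_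
      rw [kraft_sub, kraft_sub]
      exact forall₂_congr fun i hi => by rw [h1 i hi]
    rw [cnt_fam, e1, Real.exp_neg, Real.exp_log (Nat.cast_pos.2 (card_pos.2 ⟨x, hx⟩))]
  rw [sum_congr rfl e, sum_const, nsmul_eq_mul]
  exact mul_inv_le_one

/-- Recursion on the size of `S` (use fuel: `G 0 S = 0`,
`G (m + 1) S = (∑ i ∈ S, (a i S + G m (S.erase i))) / (m + 1)`, `lam S = G S.card S`). -/
theorem exists_rec (a : ι → Finset ι → ℝ) : ∃ lam : Finset ι → ℝ, lam ∅ = 0 ∧
    ∀ S : Finset ι, ∑ i ∈ S, (lam S - lam (S.erase i)) = ∑ i ∈ S, a i S := by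
  let G : ℕ → Finset ι → ℝ := fun m => Nat.rec (fun _ => 0)
    (fun m g S => (∑ i ∈ S, (a i S + g (S.erase i))) / ((m : ℝ) + 1)) m
  refine ⟨fun S => G S.card S, rfl, fun S => ?_⟩
  rcases hS : S.card with _ | m
  · rw [card_eq_zero.1 hS, sum_empty, sum_empty]
  · have e1 : ∀ i ∈ S, G (S.erase i).card (S.erase i) = G m (S.erase i) := fun i hi => by
      rw [card_erase_of_mem hi, hS, Nat.add_sub_cancel]
    have e2 : G (m + 1) S = (∑ i ∈ S, (a i S + G m (S.erase i))) / ((m : ℝ) + 1) := rfl
    simp only [hS]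
    rw [sum_sub_distrib, sum_congr rfl e1, sum_const, hS, nsmul_eq_mul, e2, sum_add_distrib]
    push_cast
    field_simp
    ring

/-- The bound for one coordinate. -/
theorem kraft_one (A : Finset (ι → Bool)) (f : (ι → Bool) → ℝ) {S : Finset ι} {i : ι} (hi : i ∈ S)
    (ih : ∀ y : ι → Bool, ∑ x ∈ A.filter fun x => df y x ⊆ S.erase i, Real.exp (-f x) ≤ 1)
    (y : ι → Bool) :
    ∑ x ∈ A.filter fun x => df y x ⊆ S,
      Real.exp (-(Real.log 2 * ind (Alive (fam A x) {i} S) + f x)) ≤ 1 := by
  set F := A.filter fun x => df y x ⊆ S with hF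
  have e1 : F.filter (fun x => x i = y i) = A.filter fun x => df y x ⊆ S.erase i := by
    ext x
    simp only [hF, mem_filter, kraft_sub, mem_erase, not_and_or, not_not, and_assoc]
    refine and_congr_right fun _ => ⟨fun h j hj => ?_, fun h =>
      ⟨fun j hj => h j (Or.inr hj), (h i (Or.inl rfl)).symm⟩⟩
    rcases hj with rfl | hj
    · exact h.2.symm
    · exact h.1 j hj
  have f1 : flp y {i} i = !y i := if_pos (mem_singleton_self i)
  have f2 : ∀ j, j ∉ S → flp y {i} j = y j := fun j hj =>
    if_neg fun h => hj (singleton_subset_iff.2 hi h)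
  have e2 : F.filter (fun x => ¬ x i = y i) =
      A.filter fun x => df (flp y {i}) x ⊆ S.erase i := by
    ext x
    simp only [hF, mem_filter, kraft_sub, mem_erase, not_and_or, not_not, and_assoc]
    refine and_congr_right fun _ => ⟨fun h j hj => ?_, fun h =>
      ⟨fun j hj => (f2 j hj).symm.trans (h j (Or.inr hj)), fun h' => ?_⟩⟩
    · rcases hj with rfl | hj
      · rw [f1]
        have := h.2
        revert this
        cases x j <;> cases y j <;> simp
      · exact (f2 j hj).trans (h.1 j hj)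
    · have := h i (Or.inl rfl)
      rw [f1, h'] at this
      revert this
      cases y i <;> simp
  have hl : (0 : ℝ) ≤ Real.log 2 := Real.log_nonneg one_le_two
  have b0 : ∀ T : Finset (ι → Bool),
      ∑ x ∈ T, Real.exp (-(Real.log 2 * ind (Alive (fam A x) {i} S) + f x)) ≤
        ∑ x ∈ T, Real.exp (-f x) := fun T => sum_le_sum fun x _ => Real.exp_le_exp.2 (by
      have := mul_nonneg hl (ind_nonneg (Alive (fam A x) {i} S))
      linarith)
  have b1 := ih y
  have b2 := ih (flp y {i})
  rw [← e1] at b1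
  rw [← e2] at b2
  rcases (F.filter fun x => x i = y i).eq_empty_or_nonempty with h1 | ⟨u, hu⟩
  · rw [← sum_filter_add_sum_filter_not F fun x => x i = y i, h1, sum_empty, zero_add]
    exact (b0 _).trans b2
  rcases (F.filter fun x => ¬ x i = y i).eq_empty_or_nonempty with h2 | ⟨v, hv⟩
  · rw [← sum_filter_add_sum_filter_not F fun x => x i = y i, h2, sum_empty, add_zero]
    exact (b0 _).trans b1
  have al : ∀ x ∈ F, ∀ z ∈ F, x i ≠ z i → Alive (fam A x) {i} S := fun x hx z hz h =>
    alive_fam.2 ⟨z, (mem_filter.1 hz).1, singleton_subset_iff.2 (mem_df.2 h),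
      (kraft_sub.2 fun j hj => (kraft_sub.1 (mem_filter.1 hx).2 j hj).symm.trans
        (kraft_sub.1 (mem_filter.1 hz).2 j hj)).trans subset_union_left⟩
  have e3 : ∀ x ∈ F, Real.exp (-(Real.log 2 * ind (Alive (fam A x) {i} S) + f x)) =
      1 / 2 * Real.exp (-f x) := by
    intro x hx
    have h : Alive (fam A x) {i} S := by
      by_cases h : x i = y i
      · exact al x hx v (mem_filter.1 hv).1 fun h' => (mem_filter.1 hv).2 (h'.symm.trans h)
      · exact al x hx u (mem_filter.1 hu).1 fun h' => h (h'.trans (mem_filter.1 hu).2)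
    rw [ind_pos h, mul_one, neg_add, Real.exp_add, Real.exp_neg, Real.exp_log two_pos, one_div]
  rw [sum_congr rfl e3, ← mul_sum, ← sum_filter_add_sum_filter_not F fun x => x i = y i]
  linarith

/-- Induction on the size of `S`. For `S = ∅` the fibre has at most one point. Otherwise `lam x S`
is the average over `i ∈ S` of `log 2 * ind (Alive ..) + lam x (S.erase i)`, so by convexity of
`exp` the term is at most the average of `exp (-(log 2 * ind ..)) * exp (-lam x (S.erase i))`.
For fixed `i` split the fibre by `x i = y i`: the parts are the fibres of `S.erase i` at `y` and at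
`flp y {i}`. If both are nonempty every point is alive and each part gives at most `1 / 2`. -/
theorem kraft_rec (A : Finset (ι → Bool)) (lam : (ι → Bool) → Finset ι → ℝ)
    (h0 : ∀ x, lam x ∅ = 0)
    (h : ∀ x (S : Finset ι), ∑ i ∈ S, (lam x S - lam x (S.erase i)) =
      ∑ i ∈ S, Real.log 2 * ind (Alive (fam A x) {i} S)) (S : Finset ι) (y : ι → Bool) :
    ∑ x ∈ A.filter fun x => df y x ⊆ S, Real.exp (-lam x S) ≤ 1 := by
  induction hm : S.card generalizing S y with
  | zero =>
    rw [card_eq_zero.1 hm]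
    have b1 : (A.filter fun x => df y x ⊆ ∅).card ≤ 1 := card_le_one.2 fun u hu v hv =>
      funext fun i => (kraft_sub.1 (mem_filter.1 hu).2 i (notMem_empty i)).symm.trans
        (kraft_sub.1 (mem_filter.1 hv).2 i (notMem_empty i))
    simp only [h0, neg_zero, Real.exp_zero, sum_const, nsmul_eq_mul, mul_one]
    exact_mod_cast b1
  | succ m ih =>
    have hc : (0 : ℝ) < S.card := by rw [hm]; positivity
    have hw : ∑ _i ∈ S, ((S.card : ℝ))⁻¹ = 1 := by
      rw [sum_const, nsmul_eq_mul, mul_inv_cancel₀ hc.ne']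
    have b1 : ∀ x, Real.exp (-lam x S) ≤ ∑ i ∈ S, ((S.card : ℝ))⁻¹ *
        Real.exp (-(Real.log 2 * ind (Alive (fam A x) {i} S) + lam x (S.erase i))) := by
      intro x
      have b2 := convexOn_exp.map_sum_le (t := S) (w := fun _ => ((S.card : ℝ))⁻¹)
        (p := fun i => -(Real.log 2 * ind (Alive (fam A x) {i} S) + lam x (S.erase i)))
        (fun _ _ => inv_nonneg.2 hc.le) hw fun _ _ => Set.mem_univ _
      simp only [smul_eq_mul] at b2
      refine le_trans (le_of_eq (congrArg _ ?_)) b2
      have b3 := h x S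
      rw [sum_sub_distrib, sum_const, nsmul_eq_mul] at b3
      rw [← mul_sum, sum_neg_distrib, sum_add_distrib, ← b3]
      field_simp
      ring
    refine (sum_le_sum fun x _ => b1 x).trans ?_
    rw [sum_comm, ← hw]
    refine sum_le_sum fun i hi => ?_
    rw [← mul_sum]
    refine mul_le_of_le_one_right (inv_nonneg.2 hc.le) ?_
    exact kraft_one A (fun x => lam x (S.erase i)) hi
      (fun y => ih (S.erase i) y (by rw [card_erase_of_mem hi, hm, Nat.add_sub_cancel])) y

end Vale.Agent.P336C
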