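import Vale.Agent.P336C.Base
import Vale.Agent.P336C.Calc
import Vale.Agent.P336C.Frame
import Vale.Agent.P336C.Kraft
import Vale.Agent.P336C.Comb

/-! The case where the hubs receive many edges. -/

namespace Vale.Agent.P336C

open Finset Vale.Agent.P151

section

variable {ι : Type} [Fintype ι] [DecidableEq ι] {D : Finset (Finset ι)} {k : ℕ} {p δ : ℝ}

/-- For `i ∈ H` the term vanishes; the other terms form the sum over `S \ H`; then `h`, `E_mem`. -/
theorem drift_rec (lam : Finset ι → ℝ) (H : Finset ι)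
    (h : ∀ S : Finset ι, ∑ i ∈ S, (lam S - lam (S.erase i)) =
      ∑ i ∈ S, Real.log 2 * ind (Alive D {i} S)) (p : ℝ) :
    drift lam H p = Real.log 2 * p * ∑ i ∈ Hᶜ, sv p D {i} H := by
  have h1 : ∀ S : Finset ι, ∑ i ∈ S, (lam (S \ H) - lam (S.erase i \ H)) =
      ∑ i ∈ Hᶜ, Real.log 2 * (ind (i ∈ S) * ind (Alive D {i} (S \ H))) := by
    intro S
    have e1 : ∑ i ∈ S, (lam (S \ H) - lam (S.erase i \ H)) =
        ∑ i ∈ S \ H, (lam (S \ H) - lam ((S \ H).erase i)) := by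
      rw [← sum_subset (sdiff_subset (s := S) (t := H)) fun i hi hn => ?_]
      · refine sum_congr rfl fun i _ => ?_
        rw [erase_sdiff_comm]
      · have hH : i ∈ H := by
          by_contra h'
          exact hn (mem_sdiff.2 ⟨hi, h'⟩)
        rw [erase_sdiff_comm, erase_eq_of_notMem hn, sub_self]
    rw [e1, h, ← sum_subset (s₁ := S \ H) (fun i hi => mem_compl.2 (mem_sdiff.1 hi).2)
      fun i hi hn => ?_]
    · exact sum_congr rfl fun i hi => by rw [ind_pos (mem_sdiff.1 hi).1, one_mul]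
    · rw [ind_neg fun h' => hn (mem_sdiff.2 ⟨h', mem_compl.1 hi⟩), zero_mul, mul_zero]
  unfold drift
  simp only [h1]
  rw [E_sum, mul_sum]
  refine sum_congr rfl fun i _ => ?_
  rw [E_mul_left, E_mem (fun S => ind (Alive D {i} (S \ H))) i, mul_assoc, sv]
  have h2 : ∀ S : Finset ι, insert i S \ H ∪ {i} = S \ H ∪ {i} := by
    intro S
    ext j
    by_cases hj : j = i <;> simp [hj]
  simp only [Alive, h2]

/-- `tg` with `M = H` for each point; `∑ a, |Q a \ H| ≤ 7 / 8 * n * k`;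
`log 2 * (1 / 16 - 7 / 8 * δ) ≥ 1 / 25`. -/
theorem hub_gain (h0 : 0 < p) (h1 : p < 1) (hk : 0 < k) (hi : (k : ℝ) * th p ≤ 2 * Real.log 2)
    (hd : δ ≤ 1 / 10 ^ 6) (hd0 : 0 ≤ δ)
    (up : ∀ P : Finset ι, P.Nonempty → P.card ≤ 3 → sv p D P ∅ ≤ 1 / 2 + δ)
    {Q : ι → Finset ι} (hc : ∀ a, Cover D k {a} (Q a)) {H : Finset ι}
    (hH : (Fintype.card ι : ℝ) * k / 8 ≤ ∑ a, ((Q a ∩ H).card : ℝ)) :
    ∑ a, sv p D {a} H ≤ Fintype.card ι * (1 / 2 - 1 / 25) := by
  have hk0 : (0 : ℝ) < k := by exact_mod_cast hk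
  have hl := Real.log_two_gt_d9
  have hn : (0 : ℝ) ≤ Fintype.card ι := Nat.cast_nonneg _
  have e1 : ∀ a, sv p D {a} H ≤
      1 / 2 - Real.log 2 / 2 + Real.log 2 * (1 / 2 + δ) / k * ((k : ℝ) - (Q a ∩ H).card) := by
    intro a
    have h2 : ∑ l ∈ Q a \ H, sv p D (insert l {a}) H ≤
        ((k : ℝ) - (Q a ∩ H).card) * (1 / 2 + δ) := by
      refine (sum_le_card_nsmul _ _ (1 / 2 + δ) fun l _ => (sv_anti h0.le h1.le (empty_subset H)).trans
        (up _ (insert_nonempty _ _) (card_le_two.trans (by norm_num)))).trans ?_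
      rw [nsmul_eq_mul]
      refine mul_le_mul_of_nonneg_right ?_ (by linarith)
      have h3 : (Q a \ H).card + (Q a ∩ H).card ≤ k :=
        (card_sdiff_add_card_inter _ _).trans_le (hc a).1
      have h4 : ((Q a \ H).card : ℝ) + (Q a ∩ H).card ≤ k := by exact_mod_cast h3
      linarith
    refine (tg h0.le h1 hk hi (hc a) H).trans ?_
    have h5 := mul_le_mul_of_nonneg_left (div_le_div_of_nonneg_right h2 hk0.le)
      (show 0 ≤ Real.log 2 by linarith)
    have h6 : Real.log 2 * (((k : ℝ) - (Q a ∩ H).card) * (1 / 2 + δ) / k) =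
        Real.log 2 * (1 / 2 + δ) / k * ((k : ℝ) - (Q a ∩ H).card) := by ring
    linarith
  refine (sum_le_sum fun a _ => e1 a).trans ?_
  rw [sum_add_distrib, ← mul_sum, sum_const, sum_sub_distrib, sum_const, card_univ, nsmul_eq_mul,
    nsmul_eq_mul]
  have e2 : Real.log 2 * (1 / 2 + δ) / k * (Fintype.card ι * k - ∑ a, ((Q a ∩ H).card : ℝ)) ≤
      Real.log 2 * (1 / 2 + δ) / k * (7 / 8 * (Fintype.card ι * k)) :=
    mul_le_mul_of_nonneg_left (by linarith) (by positivity)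
  have e3 : Real.log 2 * (1 / 2 + δ) / k * (7 / 8 * (Fintype.card ι * k)) =
      Fintype.card ι * (Real.log 2 * (7 / 8 * (1 / 2 + δ))) := by field_simp
  have e4 : 1 / 2 - Real.log 2 / 2 + Real.log 2 * (7 / 8 * (1 / 2 + δ)) ≤ 1 / 2 - 1 / 25 := by
    nlinarith
  have e5 := mul_le_mul_of_nonneg_left e4 hn
  linarith

end

/-- `calc_main` with `ε = 1 / 25`, `base` for its `R, δ`; `K ≥ 1` with
`4 * cR R 1 ≤ K * (log 2 * (g - π ^ 2 / 6))`, `c = (g + π ^ 2 / 6) / 2`; `lam x` from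
`exists_rec`, `kraft_rec`, `kraft_global`; `finish` with `H x = hub (Q x) K k`, `h = n / K`
(`hub_card`), `drift_rec`, `sv_anti`, `hub_gain`, `cR_half`. -/
theorem caseH : ∃ (K d k0 : ℕ) (c : ℝ), 1 ≤ K ∧ Real.pi ^ 2 / 6 < c ∧
    ∀ (ι : Type) [Fintype ι] [DecidableEq ι], 0 < Fintype.card ι → ∀ k, k0 ≤ k →
      ∀ A : Finset (ι → Bool), A.Nonempty → Cvd A k d → ∀ Q : (ι → Bool) → ι → Finset ι,
        (∀ x ∈ A, ∀ a, Cover (fam A x) k {a} (Q x a)) →
        (∀ x ∈ A, (Fintype.card ι : ℝ) * k / 8 ≤ ∑ a, ((Q x a ∩ hub (Q x) K k).card : ℝ)) →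
        Real.log A.card ≤ Real.log 2 * (Fintype.card ι - c * Fintype.card ι / k) := by
  obtain ⟨R, k0, δ, g, hR, hk0, hδ, -, hδ1, hg, hcalc⟩ :=
    calc_main (ε := 1 / 25) (by norm_num) (by norm_num)
  obtain ⟨d, -, hb⟩ := base hR hδ
  have hl : 0 < Real.log 2 := Real.log_pos one_lt_two
  have hw : 0 < Real.log 2 * (g - Real.pi ^ 2 / 6) := mul_pos hl (sub_pos.2 hg)
  obtain ⟨K', hK'⟩ := exists_nat_ge (4 * cR R 1 / (Real.log 2 * (g - Real.pi ^ 2 / 6)))
  rw [div_le_iff₀ hw] at hK'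
  refine ⟨K' + 1, d, k0, (g + Real.pi ^ 2 / 6) / 2, by omega, by linarith, ?_⟩
  intro ι _ _ hn k hk A hA hC Q hQ hH
  have hk1 : 1 ≤ k := hk0.trans hk
  have hkR : (0 : ℝ) < k := by exact_mod_cast hk1
  have hK : (0 : ℝ) < ((K' + 1 : ℕ) : ℝ) := by positivity
  have hnR : (0 : ℝ) ≤ Fintype.card ι := Nat.cast_nonneg _
  choose lam hl0 hl1 using fun x : ι → Bool =>
    exists_rec fun i S => Real.log 2 * ind (Alive (fam A x) {i} S)
  have hd : ∀ x ∈ A, ∀ p t : ℝ, 0 < p → p < 1 →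
      ∑ a, sv p (fam A x) {a} (hub (Q x) (K' + 1) k) ≤ Fintype.card ι * t →
      drift (lam x) (hub (Q x) (K' + 1) k) p ≤ Real.log 2 * p * Fintype.card ι * t := by
    intro x _ p t p0 p1 h
    rw [drift_rec _ _ (hl1 x), mul_assoc (Real.log 2 * p)]
    exact mul_le_mul_of_nonneg_left ((sum_le_sum_of_subset_of_nonneg (subset_univ _)
      fun _ _ _ => sv_nonneg p0.le p1.le).trans h) (by positivity)
  have hf := finish (h := Fintype.card ι / ((K' + 1 : ℕ) : ℝ)) hk1 hR (hcalc k hk) hn A hA lam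
    (fun x => hub (Q x) (K' + 1) k) (kraft_global A lam (kraft_rec A lam hl0 hl1))
    (fun x _ => hl0 x) (fun x hx => by
      rw [le_div_iff₀ hK]
      exact_mod_cast hub_card hk1 fun a => (hQ x hx a).1)
    (fun z p z0 z1 p0 p1 hz => by
      rw [← nsmul_eq_mul]
      refine sum_le_card_nsmul _ _ _ fun x hx => hd x hx p _ p0 p1 ?_
      rw [← nsmul_eq_mul, ← card_univ]
      exact sum_le_card_nsmul _ _ _ fun a _ => (sv_anti p0.le p1.le (empty_subset _)).trans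
        (hb ι _ k p z p0 p1 z0 z1 hz (hC x hx) _ (singleton_nonempty a) (by simp)))
    (fun p p0 p1 _ hz => by
      rw [← nsmul_eq_mul]
      exact sum_le_card_nsmul _ _ _ fun x hx => hd x hx p _ p0 p1
        (hub_gain p0 p1 hk1 (hz.trans cR_half) hδ1 hδ.le (hb ι _ k p (1 / 2) p0 p1 (by norm_num)
          (by norm_num) hz (hC x hx)) (hQ x hx) (hH x hx)))
  refine hf.trans ?_
  have e1 : 4 * cR R 1 / ((K' + 1 : ℕ) : ℝ) ≤ Real.log 2 * (g - Real.pi ^ 2 / 6) := by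
    rw [div_le_iff₀ hK]
    push_cast
    linarith
  have e2 := mul_le_mul_of_nonneg_left e1 (div_nonneg hnR hkR.le)
  have e3 : 2 * (Fintype.card ι / ((K' + 1 : ℕ) : ℝ)) * cR R 1 / k =
      Fintype.card ι / k * (4 * cR R 1 / ((K' + 1 : ℕ) : ℝ)) / 2 := by ring
  have e4 : Real.log 2 * (Fintype.card ι - (g + Real.pi ^ 2 / 6) / 2 * Fintype.card ι / k) =
      Real.log 2 * (Fintype.card ι - g * Fintype.card ι / k) +
        Fintype.card ι / k * (Real.log 2 * (g - Real.pi ^ 2 / 6)) / 2 := by ring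
  linarith

end Vale.Agent.P336C
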