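import Vale.Agent.P336C.Kraft

/-! The entropy of one coordinate in a fibre. -/

namespace Vale.Agent.P336C

open Finset Vale.Agent.P151

variable {ι : Type} [Fintype ι] [DecidableEq ι]

/-- With `y = 1 / (2 * q)`: `log y ≤ y - 1`, and `log y ≤ y - 1 - 1 / 100` if `y ≤ 5 / 6` or
`5 / 4 ≤ y` (for instance `log y = log (y / a) + log a ≤ y / a - 1 + log a` with `a = 10 / 11`,
`a = 10 / 9`; `Real.le_log_one_add_of_nonneg` gives `log (11 / 10) ≥ 2 / 21`). -/
theorem neg_log_le {q : ℝ} (h0 : 0 < q) :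
    -Real.log q ≤ Real.log 2 + (1 / (2 * q) - 1) - 1 / 100 * ind (1 / 10 ≤ |q - 1 / 2|) := by
  have hy : 0 < 1 / (2 * q) := by positivity
  have e : -Real.log q = Real.log 2 + Real.log (1 / (2 * q)) := by
    rw [one_div, Real.log_inv, Real.log_mul two_ne_zero h0.ne']
    ring
  rw [e]
  by_cases h : 1 / 10 ≤ |q - 1 / 2|
  · rw [ind_pos h]
    rcases le_abs.1 h with h | h
    · have h1 : 1 / (2 * q) ≤ 5 / 6 := by
        rw [div_le_div_iff₀ (by positivity) (by norm_num)]
        linarith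
      have h2 := Real.log_le_sub_one_of_pos (mul_pos hy (show (0 : ℝ) < 1 + 1 / 10 by norm_num))
      rw [Real.log_mul hy.ne' (by norm_num)] at h2
      have h3 := Real.le_log_one_add_of_nonneg (show (0 : ℝ) ≤ 1 / 10 by norm_num)
      norm_num at h3 h2 h1 ⊢
      linarith
    · have h1 : 5 / 4 ≤ 1 / (2 * q) := by
        rw [div_le_div_iff₀ (by norm_num) (by positivity)]
        linarith
      have h2 := Real.log_le_sub_one_of_pos (div_pos hy (show (0 : ℝ) < 10 / 9 by norm_num))
      rw [Real.log_div hy.ne' (by norm_num)] at h2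
      have h3 := Real.log_le_sub_one_of_pos (show (0 : ℝ) < 10 / 9 by norm_num)
      linarith
  · rw [ind_neg h]
    linarith [Real.log_le_sub_one_of_pos hy]

theorem alive_iff_cnt {D : Finset (Finset ι)} {S : Finset ι} {i : ι} (hi : i ∈ S) :
    Alive D {i} S ↔ cnt D (S.erase i) < cnt D S := by
  unfold cnt
  rw [Nat.cast_lt]
  have hs : (D.filter fun T => T ⊆ S.erase i) ⊆ D.filter fun T => T ⊆ S := fun T hT =>
    mem_filter.2 ⟨(mem_filter.1 hT).1, (mem_filter.1 hT).2.trans (erase_subset _ _)⟩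
  have e : S ∪ {i} = S := union_eq_left.2 (singleton_subset_iff.2 hi)
  constructor
  · rintro ⟨T, h1, h2, h3⟩
    rw [e] at h3
    refine card_lt_card ((ssubset_iff_of_subset hs).2 ⟨T, mem_filter.2 ⟨h1, h3⟩, fun h => ?_⟩)
    exact notMem_erase i S ((mem_filter.1 h).2 (singleton_subset_iff.1 h2))
  · intro h
    obtain ⟨T, h1, h2⟩ := exists_mem_notMem_of_card_lt_card h
    obtain ⟨h3, h4⟩ := mem_filter.1 h1
    refine ⟨T, h3, singleton_subset_iff.2 ?_, by rwa [e]⟩
    by_contra h5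
    exact h2 (mem_filter.2 ⟨h3, subset_erase.2 ⟨h4, h5⟩⟩)

theorem gibbs_df_comm (x y : ι → Bool) : df x y = df y x := by
  ext i
  rw [mem_df, mem_df, ne_comm]

theorem gibbs_pos {A : Finset (ι → Bool)} {x : ι → Bool} (hx : x ∈ A) (S : Finset ι) :
    0 < cnt (fam A x) S :=
  Nat.cast_pos.2 (card_pos.2 ⟨∅, mem_filter.2 ⟨empty_mem_fam hx, empty_subset _⟩⟩)

theorem gibbs_alive {A : Finset (ι → Bool)} {S : Finset ι} {i : ι} (hi : i ∈ S) {x y : ι → Bool}
    (hy : y ∈ A) (h : df y x ⊆ S) (ha : Alive (fam A y) {i} S) : Alive (fam A x) {i} S := by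
  have e : S ∪ {i} = S := union_eq_left.2 (singleton_subset_iff.2 hi)
  rw [alive_fam, e] at ha ⊢
  obtain ⟨z, hz, h1, h2⟩ := ha
  by_cases h3 : x i = y i
  · refine ⟨z, hz, singleton_subset_iff.2 (mem_df.2 ?_), fun j hj => ?_⟩
    · rw [h3]
      exact mem_df.1 (singleton_subset_iff.1 h1)
    · by_cases h4 : y j = x j
      · exact h2 (mem_df.2 (h4 ▸ mem_df.1 hj))
      · exact h (mem_df.2 h4)
  · exact ⟨y, hy, singleton_subset_iff.2 (mem_df.2 h3), gibbs_df_comm y x ▸ h⟩

theorem gibbs_one (A : Finset (ι → Bool)) (S : Finset ι) (y : ι → Bool) :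
    ∑ x ∈ A.filter fun x => df y x ⊆ S, (cnt (fam A x) S)⁻¹ ≤ 1 := by
  refine le_of_eq_of_le (sum_congr rfl fun x hx => ?_) (kraft_log A S y)
  rw [Real.exp_neg, Real.exp_log (gibbs_pos (mem_filter.1 hx).1 S)]

theorem gibbs_two (A : Finset (ι → Bool)) (S : Finset ι) (i : ι) (y : ι → Bool) :
    ∑ x ∈ A.filter fun x => df y x ⊆ S, (cnt (fam A x) (S.erase i))⁻¹ ≤ 2 := by
  have hn : ∀ x, 0 ≤ (cnt (fam A x) (S.erase i))⁻¹ := fun x => inv_nonneg.2 (Nat.cast_nonneg _)
  have h1 : ((A.filter fun x => df y x ⊆ S).filter fun x => y i = x i) ⊆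
      A.filter fun x => df y x ⊆ S.erase i := fun x hx => by
    obtain ⟨a1, a2⟩ := mem_filter.1 hx
    obtain ⟨a3, a4⟩ := mem_filter.1 a1
    exact mem_filter.2 ⟨a3, subset_erase.2 ⟨a4, fun h => mem_df.1 h a2⟩⟩
  have h2 : ((A.filter fun x => df y x ⊆ S).filter fun x => ¬ y i = x i) ⊆
      A.filter fun x => df (flp y {i}) x ⊆ S.erase i := fun x hx => by
    obtain ⟨a1, a2⟩ := mem_filter.1 hx
    obtain ⟨a3, a4⟩ := mem_filter.1 a1
    refine mem_filter.2 ⟨a3, fun j hj => ?_⟩
    have a5 := mem_df.1 hj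
    by_cases e : j = i
    · subst e
      simp only [flp, mem_singleton, if_true] at a5
      exact absurd (Bool.not_eq_iff.2 a2) a5
    · simp only [flp, mem_singleton, e, if_false] at a5
      exact mem_erase.2 ⟨e, a4 (mem_df.2 a5)⟩
  rw [← sum_filter_add_sum_filter_not _ fun x => y i = x i]
  linarith [sum_le_sum_of_subset_of_nonneg h1 fun x _ _ => hn x,
    sum_le_sum_of_subset_of_nonneg h2 fun x _ _ => hn x, gibbs_one A (S.erase i) y,
    gibbs_one A (S.erase i) (flp y {i})]

/-- Double counting: write `cnt (fam A x) S` as a sum over `y` in the fibre of `x`, swap; being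
alive is constant on fibres; for fixed `y` the sum over `x` in the fibre of
`1 / cnt (fam A x) (S.erase i)` is at most `2` (`kraft_log` at `y` and at `flp y {i}`). -/
theorem dbl_count (A : Finset (ι → Bool)) (S : Finset ι) {i : ι} (hi : i ∈ S) :
    ∑ x ∈ A, ind (Alive (fam A x) {i} S) * (cnt (fam A x) S / cnt (fam A x) (S.erase i)) ≤
      2 * ∑ x ∈ A, ind (Alive (fam A x) {i} S) := by
  have h1 : ∀ x ∈ A, ind (Alive (fam A x) {i} S) * (cnt (fam A x) S / cnt (fam A x) (S.erase i)) =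
      ∑ y ∈ A, if df y x ⊆ S then ind (Alive (fam A y) {i} S) * (cnt (fam A x) (S.erase i))⁻¹
        else 0 := by
    intro x hx
    rw [← sum_filter, sum_congr rfl (g := fun _ =>
      ind (Alive (fam A x) {i} S) * (cnt (fam A x) (S.erase i))⁻¹) fun y hy => by
        rw [ind_congr ⟨gibbs_alive hi (mem_filter.1 hy).1 (mem_filter.1 hy).2,
          gibbs_alive hi hx (gibbs_df_comm y x ▸ (mem_filter.1 hy).2)⟩],
      sum_const, nsmul_eq_mul, cnt_fam A x S, div_eq_mul_inv]
    simp only [gibbs_df_comm x]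
    ring
  rw [sum_congr rfl h1, sum_comm, mul_sum]
  refine sum_le_sum fun y _ => ?_
  rw [← sum_filter, ← mul_sum, mul_comm]
  exact mul_le_mul_of_nonneg_right (gibbs_two A S i y) (ind_nonneg _)

/-- Pointwise `neg_log_le` with `q = cnt (S.erase i) / cnt S` for alive points (both counts are at
least one); for the other points both sides vanish. Then `dbl_count`. -/
theorem gibbs (A : Finset (ι → Bool)) (S : Finset ι) {i : ι} (hi : i ∈ S) :
    ∑ x ∈ A, (Real.log (cnt (fam A x) S) - Real.log (cnt (fam A x) (S.erase i))) ≤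
      ∑ x ∈ A, (Real.log 2 * ind (Alive (fam A x) {i} S) - 1 / 100 * ind (Bias (fam A x) i S)) := by
  have h1 : ∀ x ∈ A, Real.log (cnt (fam A x) S) - Real.log (cnt (fam A x) (S.erase i)) ≤
      (Real.log 2 * ind (Alive (fam A x) {i} S) - 1 / 100 * ind (Bias (fam A x) i S)) +
        (1 / 2 * (ind (Alive (fam A x) {i} S) * (cnt (fam A x) S / cnt (fam A x) (S.erase i))) -
          ind (Alive (fam A x) {i} S)) := by
    intro x hx
    have a1 := gibbs_pos hx S
    have a2 := gibbs_pos hx (S.erase i)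
    by_cases h : Alive (fam A x) {i} S
    · have a3 := neg_log_le (div_pos a2 a1)
      rw [Real.log_div a2.ne' a1.ne'] at a3
      have a4 : ind (Bias (fam A x) i S) =
          ind (1 / 10 ≤ |cnt (fam A x) (S.erase i) / cnt (fam A x) S - 1 / 2|) :=
        ind_congr (and_iff_right ((alive_iff_cnt hi).1 h))
      have a5 : 1 / (2 * (cnt (fam A x) (S.erase i) / cnt (fam A x) S)) =
          1 / 2 * (cnt (fam A x) S / cnt (fam A x) (S.erase i)) := by
        field_simp
      rw [ind_pos h, a4]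
      linarith
    · have a3 := (alive_iff_cnt hi).not.1 h
      rw [ind_neg h, ind_neg (fun hb : Bias (fam A x) i S => a3 hb.1)]
      linarith [Real.log_le_log a1 (not_lt.1 a3)]
  refine (sum_le_sum h1).trans ?_
  rw [sum_add_distrib, sum_sub_distrib (fun x => 1 / 2 * _), ← mul_sum]
  linarith [dbl_count A S hi]

/-- Swap sums, `gibbs` for each `S` and `i ∈ S`, `E_mem`, and
`Alive D {i} (insert i S) ↔ Alive D {i} S`. -/
theorem drift_log (A : Finset (ι → Bool)) {p : ℝ} (h0 : 0 ≤ p) (h1 : p ≤ 1) :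
    ∑ x ∈ A, drift (fun S => Real.log (cnt (fam A x) S)) ∅ p ≤
      ∑ x ∈ A, (Real.log 2 * p * ∑ i, sv p (fam A x) {i} ∅ - 1 / 100 * bsum p (fam A x)) := by
  have a1 : ∀ (D : Finset (Finset ι)) (i : ι), p * sv p D {i} ∅ =
      E p fun S => ind (i ∈ S) * ind (Alive D {i} S) := by
    intro D i
    rw [E_mem, sv_empty]
    congr 2
    funext S
    refine ind_congr ?_
    unfold Alive
    rw [insert_eq, union_comm {i} S, union_assoc, union_self]
  have a2 : ∀ D : Finset (Finset ι), Real.log 2 * p * ∑ i, sv p D {i} ∅ - 1 / 100 * bsum p D =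
      E p fun S => ∑ i ∈ S, (Real.log 2 * ind (Alive D {i} S) - 1 / 100 * ind (Bias D i S)) := by
    intro D
    rw [mul_assoc, mul_sum, bsum, sum_congr rfl fun i _ => a1 D i, ← E_sum, ← E_sum, ← E_mul_left,
      ← E_mul_left, ← E_sub]
    congr 1
    funext S
    rw [mul_sum, mul_sum, ← sum_sub_distrib]
    refine (sum_subset (subset_univ S) fun i _ hi => ?_).symm.trans (sum_congr rfl fun i hi => ?_)
    · rw [ind_and, ind_neg hi]
      ring
    · rw [ind_and, ind_pos hi]
      ring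
  rw [sum_congr rfl fun x _ => a2 (fam A x)]
  unfold drift
  rw [← E_sum, ← E_sum]
  refine E_mono h0 h1 fun S => ?_
  rw [sum_comm, sum_comm (s := A)]
  simp only [sdiff_empty]
  exact sum_le_sum fun i hi => gibbs A S hi

end Vale.Agent.P336C
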