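import Vale.Agent.P336C.Good

/-! Multiplicities. -/

namespace Vale.Agent.P336C

open Finset Vale.Agent.P151

variable {ι : Type} [Fintype ι] [DecidableEq ι] {D : Finset (Finset ι)} {k K L : ℕ} {p δ : ℝ}
  {Q : ι → Finset ι} {Q2 : ι → ι → Finset ι}

omit [DecidableEq ι] in
theorem mult_cnt {s : Finset ι} {c : Prop} {P : ι → Prop} {m : ℝ} (hm : 0 ≤ m)
    (h : ∀ x, P x → c ∧ x ∈ s ∧ (s.card : ℝ) ≤ m) : ∑ x, ind (P x) ≤ m * ind c := by
  by_cases hP : ∃ x, P x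
  · obtain ⟨x, hx⟩ := hP
    rw [ind_pos (h x hx).1, mul_one]
    refine le_trans ?_ (h x hx).2.2
    rw [← Finset.sum_subset (subset_univ s) fun y _ hy => ind_neg fun h1 => hy (h y h1).2.1]
    simpa using Finset.sum_le_card_nsmul s _ 1 fun y _ => ind_le_one (P y)
  · rw [Finset.sum_eq_zero fun x _ => ind_neg fun hx => hP ⟨x, hx⟩]
    exact mul_nonneg hm (ind_nonneg _)

omit [DecidableEq ι] in
theorem mult_tri (T : Finset (ι × ι × ι)) (P : ι × ι × ι → Prop) :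
    ∑ t ∈ T, ind (P t) = ∑ a, ∑ b, ∑ l, ind ((a, b, l) ∈ T ∧ P (a, b, l)) := by
  have h : ∑ t ∈ T, ind (P t) = ∑ t, ind (t ∈ T ∧ P t) := by
    rw [← Finset.sum_subset (subset_univ T) fun y _ hy => ind_neg fun h1 => hy h1.1]
    exact Finset.sum_congr rfl fun t ht => ind_congr (and_iff_right ht).symm
  rw [h, Fintype.sum_prod_type]
  exact Finset.sum_congr rfl fun a _ => Fintype.sum_prod_type _

theorem gd_facts (hc : Cov D k Q Q2) {H S : Finset ι} {a b l : ι} (ht : (a, b, l) ∈ trip Q H)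
    (hg : Gd D Q Q2 L (a, b, l) S) : a ∈ S ∧ b ∈ S ∧ l ∈ S ∧ a ≠ b ∧ (S ∩ Q a).card ≤ 2 ∧
      (S ∩ Q b).card ≤ L + 3 ∧ (S ∩ inn Q b).card ≤ L + 3 := by
  have h1 := hg.1
  have h2 : ∀ x ∈ ({a, b, l} : Finset ι), x ∈ S := fun x hx =>
    (mem_inter.1 (h1.ge hx)).1
  have h3 : a ∉ Q a := disjoint_singleton_left.1 (hc.one a).2.1
  refine ⟨h2 a (by simp), h2 b (by simp), h2 l (by simp), fun h => h3 (h ▸ (mem_trip.1 ht).1),
    le_trans (card_le_card fun x hx => ?_) (card_le_two (a := b) (b := l)),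
    le_trans (card_le_card (inter_subset_inter subset_rfl subset_union_left)) hg.2.2.2,
    le_trans (card_le_card (inter_subset_inter subset_rfl subset_union_right)) hg.2.2.2⟩
  have h4 := mem_inter.1 hx
  have h5 := h1.le (mem_inter.2 ⟨h4.1, mem_insert_of_mem (mem_insert_of_mem
    (mem_union_left _ h4.2))⟩)
  exact (mem_insert.1 h5).resolve_left fun (h : x = a) => h3 (h ▸ h4.2)

/-- For fixed `a`: `b ∈ S ∩ Q a`, `l ∈ S ∩ Q b`. -/
theorem m1 (hc : Cov D k Q Q2) (H S : Finset ι) :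
    ∑ t ∈ trip Q H, ind (Gd D Q Q2 L t S ∧ Bias D t.1 S) ≤
      2 * (L + 3) * ∑ i, ind (i ∈ S ∧ Bias D i S) := by
  have hL : (0 : ℝ) ≤ L + 3 := by positivity
  rw [mult_tri, Finset.mul_sum]
  refine Finset.sum_le_sum fun a _ => ?_
  refine (Finset.sum_le_sum fun b _ => mult_cnt (s := S ∩ Q b)
    (c := (a ∈ S ∧ Bias D a S) ∧ b ∈ S ∩ Q a ∧ ((S ∩ Q a).card : ℝ) ≤ 2) hL fun l h => ?_).trans ?_
  · obtain ⟨h1, h2, h3, -, h4, h5, -⟩ := gd_facts hc h.1 h.2.1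
    have h6 := mem_trip.1 h.1
    exact ⟨⟨⟨h1, h.2.2⟩, mem_inter.2 ⟨h2, h6.1⟩, by exact_mod_cast h4⟩,
      mem_inter.2 ⟨h3, h6.2.2.1⟩, by exact_mod_cast h5⟩
  · rw [← Finset.mul_sum, mul_comm 2, mul_assoc]
    exact mul_le_mul_of_nonneg_left (mult_cnt zero_le_two fun b h => h) hL

/-- For fixed `b`: `a ∈ S ∩ inn Q b`, `l ∈ S ∩ Q b`. -/
theorem m2 (hc : Cov D k Q Q2) (H S : Finset ι) :
    ∑ t ∈ trip Q H, ind (Gd D Q Q2 L t S ∧ Bias D t.2.1 S) ≤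
      (L + 3) ^ 2 * ∑ i, ind (i ∈ S ∧ Bias D i S) := by
  have hL : (0 : ℝ) ≤ L + 3 := by positivity
  rw [mult_tri, Finset.sum_comm, Finset.mul_sum]
  refine Finset.sum_le_sum fun b _ => ?_
  refine (Finset.sum_le_sum fun a _ => mult_cnt (s := S ∩ Q b)
    (c := (b ∈ S ∧ Bias D b S) ∧ a ∈ S ∩ inn Q b ∧ ((S ∩ inn Q b).card : ℝ) ≤ L + 3) hL
      fun l h => ?_).trans ?_
  · obtain ⟨h1, h2, h3, -, -, h5, h7⟩ := gd_facts hc h.1 h.2.1
    have h6 := mem_trip.1 h.1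
    exact ⟨⟨⟨h2, h.2.2⟩, mem_inter.2 ⟨h1, mem_inn.2 h6.1⟩, by exact_mod_cast h7⟩,
      mem_inter.2 ⟨h3, h6.2.2.1⟩, by exact_mod_cast h5⟩
  · rw [← Finset.mul_sum, sq, mul_assoc]
    exact mul_le_mul_of_nonneg_left (mult_cnt hL fun b h => h) hL

/-- The indicator is at most `ind (a ∈ S) * g b l (S.erase a)` with
`g b l R = ind (b ∈ R ∧ l ∈ R ∩ Q b ∧ (R ∩ Q b).card ≤ L + 3 ∧ Bias D b R)`; `E_swap`; at most
`K * k` values of `a` for each `b`; `∑ l, g b l R ≤ (L + 3) * ind (b ∈ R ∧ Bias D b R)`;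
`k * th p ≤ 2`. -/
theorem m3 (hs : Setup D k p δ) (hc : Cov D k Q Q2) :
    ∑ t ∈ trip Q (hub Q K k), E p (fun S => ind (Gd D Q Q2 L t S ∧ Bias D t.2.1 (S.erase t.1))) ≤
      2 * K * (L + 3) * bsum p D := by
  have hL : (0 : ℝ) ≤ L + 3 := by positivity
  have h0 := hs.p0.le
  have h1 := hs.p1.le
  have key : ∀ S : Finset ι, ∑ t ∈ trip Q (hub Q K k),
      ind (Gd D Q Q2 L t S ∧ Bias D t.2.1 (S.erase t.1)) ≤
      ∑ b, ∑ a, ((L + 3) * ind (b ∉ hub Q K k ∧ a ∈ inn Q b)) *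
        (ind (a ∈ S) * ind (b ∈ S.erase a ∧ Bias D b (S.erase a))) := by
    intro S
    rw [mult_tri, Finset.sum_comm]
    refine Finset.sum_le_sum fun b _ => Finset.sum_le_sum fun a _ => ?_
    rw [mul_assoc, ← ind_and, ← ind_and]
    refine mult_cnt (s := S ∩ Q b) hL fun l h => ?_
    obtain ⟨h2, h3, h4, h5, -, h6, -⟩ := gd_facts hc h.1 h.2.1
    have h7 := mem_trip.1 h.1
    exact ⟨⟨⟨h7.2.1, mem_inn.2 h7.1⟩, h2, mem_erase.2 ⟨h5.symm, h3⟩, h.2.2⟩,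
      mem_inter.2 ⟨h4, h7.2.2.1⟩, by exact_mod_cast h6⟩
  rw [← E_sum]
  refine (E_mono h0 h1 key).trans ?_
  rw [E_sum, bsum, Finset.mul_sum]
  refine Finset.sum_le_sum fun b _ => ?_
  rw [E_sum]
  have h2 : 0 ≤ E p fun S => ind (b ∈ S ∧ Bias D b S) := E_nonneg h0 h1 fun _ => ind_nonneg _
  have h3 : ∑ a, ind (b ∉ hub Q K k ∧ a ∈ inn Q b) ≤ (K * k : ℝ) * ind True :=
    mult_cnt (s := inn Q b) (by positivity) fun a h =>
      ⟨trivial, h.2, by exact_mod_cast inn_le h.1⟩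
  rw [ind_pos trivial, mul_one] at h3
  have h4 : (k : ℝ) * th p ≤ 2 := by linarith [hs.hi, Real.log_two_lt_d9]
  refine (Finset.sum_le_sum fun a _ => (E_mul_left _).trans_le (mul_le_mul_of_nonneg_left
    (E_swap (g := fun S => ind (b ∈ S ∧ Bias D b S)) h0 hs.p1 (fun _ => ind_nonneg _) a)
    (mul_nonneg hL (ind_nonneg _)))).trans ?_
  rw [← Finset.sum_mul, ← Finset.mul_sum, ← mul_assoc]
  refine mul_le_mul_of_nonneg_right ?_ h2
  have h5 := mul_le_mul_of_nonneg_right h3 (th_nonneg h0 hs.p1)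
  have h6 := mul_le_mul_of_nonneg_left h4 (Nat.cast_nonneg K : (0 : ℝ) ≤ K)
  rw [mul_assoc, mul_comm (2 * (K : ℝ))]
  exact mul_le_mul_of_nonneg_left (by linarith) hL

theorem mult (hs : Setup D k p δ) (h0 : ∅ ∈ D) (hc : Cov D k Q Q2) :
    ∑ t ∈ trip Q (hub Q K k), E p (fun S => ind (Gd D Q Q2 L t S)) ≤
      (2 * (L + 3) + (L + 3) ^ 2 + 2 * K * (L + 3)) * bsum p D := by
  have p0 := hs.p0.le
  have p1 := hs.p1.le
  have h1 : ∀ t ∈ trip Q (hub Q K k), E p (fun S => ind (Gd D Q Q2 L t S)) ≤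
      E p (fun S => ind (Gd D Q Q2 L t S ∧ Bias D t.1 S)) +
      E p (fun S => ind (Gd D Q Q2 L t S ∧ Bias D t.2.1 S)) +
      E p (fun S => ind (Gd D Q Q2 L t S ∧ Bias D t.2.1 (S.erase t.1))) := by
    intro t ht
    rw [← E_add, ← E_add]
    refine E_mono p0 p1 fun S => ?_
    have a1 := ind_nonneg (Gd D Q Q2 L t S ∧ Bias D t.1 S)
    have a2 := ind_nonneg (Gd D Q Q2 L t S ∧ Bias D t.2.1 S)
    have a3 := ind_nonneg (Gd D Q Q2 L t S ∧ Bias D t.2.1 (S.erase t.1))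
    by_cases hg : Gd D Q Q2 L t S
    · rw [ind_pos hg]
      rcases good_bias h0 hc ht hg with h | h | h <;> linarith [ind_pos (And.intro hg h)]
    · rw [ind_neg hg]
      linarith
  refine (Finset.sum_le_sum h1).trans ?_
  rw [Finset.sum_add_distrib, Finset.sum_add_distrib, add_mul, add_mul]
  refine add_le_add (add_le_add ?_ ?_) (m3 hs hc)
  · rw [← E_sum, bsum, ← E_sum, ← E_mul_left]
    exact E_mono p0 p1 fun S => m1 hc _ S
  · rw [← E_sum, bsum, ← E_sum, ← E_mul_left]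
    exact E_mono p0 p1 fun S => m2 hc _ S

end Vale.Agent.P336C
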