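import Vale.Agent.P336C.QSum
import Vale.Agent.P336C.Mult

/-! The gain without hubs. -/

namespace Vale.Agent.P336C

open Finset Vale.Agent.P151

/-- `ε0 = 1 / (32 * 10 ^ 11 * K)`, `L = 2048 * (K + 1)`,
`C = 2 * (L + 3) + (L + 3) ^ 2 + 2 * K * (L + 3)`, `ε = min ε0 (1 / (409600 * C))`.
`∑ i, sv {i} ∅ = n * (1 / 2 + δ) - dfc`. If `ε0 * n ≤ dfc` we are done (`bsum ≥ 0`). Otherwise
`qq_sum` gives `n * k ^ 2 / 32`, `good_prob` and `trip_le` give
`∑ E Gd ≥ p ^ 3 * k ^ 2 * n / 1024 ≥ p * n / 4096` (`le_p`), and `mult` gives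
`bsum ≥ p * n / (4096 * C)`; `log 2 ≤ 1`. -/
theorem nonhub {K : ℕ} (hK : 1 ≤ K) : ∃ ε : ℝ, 0 < ε ∧
    ∀ (ι : Type) [Fintype ι] [DecidableEq ι] (D : Finset (Finset ι)) (k : ℕ) (p δ : ℝ)
      (Q : ι → Finset ι) (Q2 : ι → ι → Finset ι), Setup D k p δ → Cov D k Q Q2 → ∅ ∈ D →
      ∑ a, ((Q a ∩ hub Q K k).card : ℝ) ≤ Fintype.card ι * k / 8 →
      Real.log 2 * p * ∑ i, sv p D {i} ∅ - 1 / 100 * bsum p D ≤
        Real.log 2 * p * Fintype.card ι * (1 / 2 + δ - ε) := by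
  have hKR : (1 : ℝ) ≤ K := by exact_mod_cast hK
  obtain ⟨C, hC⟩ : ∃ C : ℝ, C = 2 * (((2048 * (K + 1) : ℕ) : ℝ) + 3) +
      (((2048 * (K + 1) : ℕ) : ℝ) + 3) ^ 2 + 2 * K * (((2048 * (K + 1) : ℕ) : ℝ) + 3) := ⟨_, rfl⟩
  have hC0 : 0 < C := by rw [hC]; positivity
  have he0 : (0 : ℝ) < 1 / (32 * 10 ^ 11 * K) := by positivity
  have he1 : (0 : ℝ) < 1 / (409600 * C) := by positivity
  have he2 : 32 * 10 ^ 11 * K * (1 / (32 * 10 ^ 11 * K)) = (1 : ℝ) := by field_simp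
  have he3 : 409600 * C * (1 / (409600 * C)) = (1 : ℝ) := by field_simp
  generalize (1 : ℝ) / (32 * 10 ^ 11 * K) = ε0 at he0 he2
  generalize (1 : ℝ) / (409600 * C) = ε1 at he1 he3
  refine ⟨min ε0 ε1, lt_min he0 he1, fun ι _ _ D k p δ Q Q2 hs hc h0 hH => ?_⟩
  have hp := hs.p0
  have hn : (0 : ℝ) ≤ Fintype.card ι := Nat.cast_nonneg _
  have hl0 : 0 < Real.log 2 := Real.log_pos (by norm_num)
  have hl1 : Real.log 2 ≤ 1 := by linarith [Real.log_two_lt_d9]
  have hsum : ∑ i, sv p D {i} ∅ = Fintype.card ι * (1 / 2 + δ) - dfc p δ D := by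
    rw [dfc, sum_sub_distrib, sum_const, card_univ, nsmul_eq_mul]
    ring
  have hb0 : 0 ≤ bsum p D :=
    sum_nonneg fun i _ => E_nonneg hp.le hs.p1.le fun S => ind_nonneg _
  have hd0 := dfc_nonneg hs
  have hlp : 0 < Real.log 2 * p := mul_pos hl0 hp
  rw [hsum]
  rcases le_total (ε0 * Fintype.card ι) (dfc p δ D) with hd | hd
  · have h1 : min ε0 ε1 * Fintype.card ι ≤ dfc p δ D :=
      (mul_le_mul_of_nonneg_right (min_le_left _ _) hn).trans hd
    nlinarith [mul_le_mul_of_nonneg_left h1 hlp.le]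
  · have hq := qq_sum hs hc hK hH
    have ht := trip_le (fun a => (hc.one a).1) (hub Q K k)
    have hm := mult (K := K) (L := 2048 * (K + 1)) hs h0 hc
    rw [← hC] at hm
    have hL : (2 : ℝ) * (K + 1) / ((2048 * (K + 1) : ℕ) : ℝ) = 1 / 1024 := by
      push_cast
      field_simp
      norm_num
    have hg : ∑ t ∈ trip Q (hub Q K k), p ^ 3 * (sv p D {t.1, t.2.1} (mm Q Q2 t.1 t.2.2) *
        sv p D {t.2.1, t.2.2} (mm Q Q2 t.1 t.2.2) / 16 - 1 / 1024) ≤
        ∑ t ∈ trip Q (hub Q K k), E p (fun S => ind (Gd D Q Q2 (2048 * (K + 1)) t S)) := by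
      refine sum_le_sum fun t ht' => ?_
      have := good_prob (L := 2048 * (K + 1)) hs hc (by omega) (a := t.1) (b := t.2.1)
        (l := t.2.2) ht'
      rwa [hL] at this
    rw [← mul_sum, sum_sub_distrib, ← sum_div, sum_const, nsmul_eq_mul] at hg
    have h1 : 10 ^ 11 * K * dfc p δ D ≤ Fintype.card ι / 32 := by
      have := mul_le_mul_of_nonneg_left hd (show (0 : ℝ) ≤ 10 ^ 11 * K by positivity)
      have e : 10 ^ 11 * K * (ε0 * Fintype.card ι) =
          32 * 10 ^ 11 * K * ε0 * (Fintype.card ι / 32) := by ring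
      rw [e, he2] at this
      linarith
    have hk2 : (0 : ℝ) ≤ (k : ℝ) ^ 2 := sq_nonneg _
    have h2 : (Fintype.card ι / 32 : ℝ) * k ^ 2 ≤
        (Fintype.card ι / 16 - 10 ^ 11 * K * dfc p δ D) * k ^ 2 :=
      mul_le_mul_of_nonneg_right (by linarith) hk2
    have h3 : p ^ 3 * (Fintype.card ι * k ^ 2 / 1024) ≤ C * bsum p D := by
      refine le_trans (mul_le_mul_of_nonneg_left ?_ (by positivity)) (hg.trans hm)
      linarith
    have h4 : (1 / 4 : ℝ) ≤ (k * p) ^ 2 := by nlinarith [hs.le_p]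
    have h5 : p * Fintype.card ι / 4096 ≤ C * bsum p D := by
      refine le_trans ?_ h3
      have e : p ^ 3 * (Fintype.card ι * k ^ 2 / 1024) =
          p * Fintype.card ι / 1024 * (k * p) ^ 2 := by ring
      rw [e]
      have : 0 ≤ p * Fintype.card ι / 1024 := by positivity
      nlinarith
    have h6 : p * Fintype.card ι * ε1 ≤ bsum p D / 100 := by
      have := mul_le_mul_of_nonneg_left h5 he1.le
      have e : ε1 * (C * bsum p D) = 409600 * C * ε1 * (bsum p D / 409600) := by ring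
      rw [e, he3] at this
      linarith
    have h7 : Real.log 2 * (p * Fintype.card ι * min ε0 ε1) ≤ 1 * (p * Fintype.card ι * ε1) :=
      mul_le_mul hl1 (mul_le_mul_of_nonneg_left (min_le_right _ _) (by positivity))
        (mul_nonneg (by positivity) (lt_min he0 he1).le) zero_le_one
    nlinarith [mul_nonneg hlp.le hd0]

end Vale.Agent.P336C
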