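import Vale.Agent.P336C.Base
import Vale.Agent.P336C.Calc
import Vale.Agent.P336C.Frame
import Vale.Agent.P336C.Gibbs
import Vale.Agent.P336C.NonHub

/-! The case where the hubs receive few edges. -/

namespace Vale.Agent.P336C

open Finset Vale.Agent.P151

/-- `ε1` from `nonhub`, `calc_main` with `ε = min (ε1 / 2) (1 / 20)`, `base`, `k0` replaced by
`max k0 1000`, `c = g`; `finish` with `lam x S = log (cnt (fam A x) S)`, `H x = ∅`, `h = 0`
(`kraft_log`, `kraft_global`, `cnt (fam A x) ∅ = 1`); `drift_log`; on the window build `Setup`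
(`base` with `z = 1 / 2`, `cR_half`) and `Cov` (choose `Q2` from `Cvd`, as `2 ≤ d`). -/
theorem caseN {K : ℕ} (hK : 1 ≤ K) : ∃ (d k0 : ℕ) (c : ℝ), Real.pi ^ 2 / 6 < c ∧
    ∀ (ι : Type) [Fintype ι] [DecidableEq ι], 0 < Fintype.card ι → ∀ k, k0 ≤ k →
      ∀ A : Finset (ι → Bool), A.Nonempty → Cvd A k d → ∀ Q : (ι → Bool) → ι → Finset ι,
        (∀ x ∈ A, ∀ a, Cover (fam A x) k {a} (Q x a)) →
        (∀ x ∈ A, ∑ a, ((Q x a ∩ hub (Q x) K k).card : ℝ) ≤ (Fintype.card ι : ℝ) * k / 8) →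
        Real.log A.card ≤ Real.log 2 * (Fintype.card ι - c * Fintype.card ι / k) := by
  obtain ⟨ε1, hε1, hnon⟩ := nonhub hK
  have hε : 0 < min (ε1 / 2) (1 / 20) := lt_min (by linarith) (by norm_num)
  obtain ⟨R, k0, δ, g, hR, hk0, hδ, hδε, hδ6, hg, hcalc⟩ := calc_main hε (min_le_right _ _)
  obtain ⟨d, hd, hbase⟩ := base hR hδ
  refine ⟨d, max k0 1000, g, hg, fun ι _ _ hn k hk A hA hC Q hQ hhub => ?_⟩
  have hk1 : k0 ≤ k := (le_max_left _ _).trans hk
  have hk2 : 1000 ≤ k := (le_max_right _ _).trans hk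
  have hl : 0 ≤ Real.log 2 := Real.log_nonneg (by norm_num)
  have main := finish (h := 0) (by omega) hR (hcalc k hk1) hn A hA
    (fun x S => Real.log (cnt (fam A x) S)) (fun _ => ∅)
    (kraft_global A _ (kraft_log A)) ?_ (fun _ _ => by simp) ?_ ?_
  · simpa using main
  · intro x hx
    have e : (fam A x).filter (fun T => T ⊆ ∅) = {∅} := by
      ext T
      simp only [mem_filter, subset_empty, mem_singleton]
      exact ⟨fun h => h.2, fun h => ⟨h ▸ empty_mem_fam hx, h⟩⟩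
    show Real.log (cnt (fam A x) ∅) = 0
    rw [cnt, e]
    simp
  · intro z p hz0 hz1 hp0 hp1 hp
    refine (drift_log A hp0.le hp1.le).trans ?_
    rw [← nsmul_eq_mul]
    refine sum_le_card_nsmul _ _ _ fun x hx => ?_
    have h1 : ∑ i, sv p (fam A x) {i} ∅ ≤ Fintype.card ι * (z + δ) := by
      rw [← nsmul_eq_mul, ← card_univ]
      exact sum_le_card_nsmul _ _ _ fun i _ =>
        hbase ι _ k p z hp0 hp1 hz0 hz1 hp (hC x hx) {i} (singleton_nonempty i) (by simp)
    have h2 : 0 ≤ bsum p (fam A x) :=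
      sum_nonneg fun i _ => E_nonneg hp0.le hp1.le fun S => ind_nonneg _
    have h3 := mul_le_mul_of_nonneg_left h1 (mul_nonneg hl hp0.le)
    linarith
  · intro p hp0 hp1 hlo hp
    refine (drift_log A hp0.le hp1.le).trans ?_
    rw [← nsmul_eq_mul]
    refine sum_le_card_nsmul _ _ _ fun x hx => ?_
    have hS : Setup (fam A x) k p δ :=
      ⟨hp0, hp1, hlo, hp.trans cR_half, hk2, hδ.le, hδ6,
        hbase ι _ k p (1 / 2) hp0 hp1 (by norm_num) (by norm_num) hp (hC x hx)⟩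
    have h2 : ∀ a l : ι, ∃ Q2, Cover (fam A x) k {a, l} Q2 := fun a l =>
      hC x hx {a, l} (insert_nonempty _ _) (card_le_two.trans (by omega))
    choose Q2 hQ2 using h2
    refine (hnon ι _ k p δ (Q x) Q2 hS ⟨hQ x hx, fun a l _ => hQ2 a l⟩ (empty_mem_fam hx)
      (hhub x hx)).trans ?_
    refine mul_le_mul_of_nonneg_left ?_ (by positivity)
    linarith [min_le_left (ε1 / 2) (1 / 20 : ℝ)]

end Vale.Agent.P336C
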