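import Vale.Agent.P336C.Sidon
import Vale.Agent.P336C.Kraft

/-! A large code inside the language. -/

namespace Vale.Agent.P336C

open Finset

theorem code_sum_range (n : ℕ) (f : ℕ → ℕ) :
    ((List.range n).map f).sum = ∑ i ∈ range n, f i := by
  induction n with
  | zero => simp
  | succ n ih => rw [List.range_succ, List.map_append, List.sum_append, ih, sum_range_succ]; simp

theorem lang_iff {d n : ℕ} (x : Fin n → Bool) : lang d (List.ofFn x) = true ↔
    ∑ i : Fin n, (if x i = true ∧ (i : ℕ) < rr d n then 2 ^ (i : ℕ) else 0) =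
      ∑ i : Fin n, (if x i = true ∧ rr d n ≤ (i : ℕ) then (bb d n + (i : ℕ)) ^ d else 0) := by
  have key : ∀ (g : ℕ → Bool) (w : ℕ → ℕ),
      ((List.range n).map fun i => bif (List.ofFn x).getD i false && g i then w i else 0).sum =
        ∑ i : Fin n, (if x i = true ∧ g i = true then w i else 0) := by
    intro g w
    rw [code_sum_range]
    rw [Finset.sum_range]
    refine Finset.sum_congr rfl fun i _ => ?_
    have : (List.ofFn x).getD i false = x i := by
      simp [List.getD_eq_getElem?_getD]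
    rw [this]
    cases x i <;> cases g i <;> simp
  unfold lang
  rw [List.length_ofFn, key (fun i => Nat.blt i (rr d n)), key (fun i => Nat.ble (rr d n) i),
    beq_iff_eq]
  simp only [Nat.blt_eq, Nat.ble_eq]

/-- `2 ^ size m ≤ 2 * m + 1` and crude bounds. -/
theorem two_pow_rr (d n : ℕ) : 2 ^ rr d n ≤ (n + 2) ^ ((2 * d + 3) * d + 3) := by
  have h1 : ∀ m : ℕ, 2 ^ m.size ≤ 2 * m + 1 := by
    intro m
    rcases Nat.eq_zero_or_pos m.size with h | h
    · rw [h]; omega
    · obtain ⟨s, hs⟩ : ∃ s, m.size = s + 1 := ⟨m.size - 1, by omega⟩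
      have : 2 ^ s ≤ m := Nat.lt_size.1 (by omega)
      rw [hs, pow_succ]
      omega
  have h2 : n + 2 ≤ bb d n := Nat.le_self_pow (by omega) _
  have h3 : bb d n + n ≤ (n + 2) ^ (2 * d + 3) := by
    have : (n + 2) ^ (2 * d + 3) = bb d n * (n + 2) := by rw [bb, ← pow_succ]
    rw [this]
    nlinarith
  have h4 : (bb d n + n) ^ d ≤ (n + 2) ^ ((2 * d + 3) * d) := by
    rw [pow_mul]
    exact Nat.pow_le_pow_left h3 d
  have h5 : 1 ≤ (n + 2) ^ ((2 * d + 3) * d) := Nat.one_le_pow _ _ (by omega)
  refine (h1 _).trans ?_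
  rw [pow_add]
  generalize (n + 2) ^ ((2 * d + 3) * d) = X at h4 h5
  have h6 : n * (bb d n + n) ^ d ≤ n * X := Nat.mul_le_mul_left _ h4
  have h7 : 2 * n + 1 ≤ (n + 2) ^ 3 := by nlinarith [Nat.zero_le (n ^ 3), Nat.zero_le (n ^ 2)]
  nlinarith

theorem rr_le (d : ℕ) : ∃ N, ∀ n, N ≤ n → rr d n ≤ n := by
  have h := tendsto_pow_const_div_const_pow_of_one_lt ((2 * d + 3) * d + 3) (r := (2 : ℝ))
    (by norm_num)
  obtain ⟨N, hN⟩ := Filter.eventually_atTop.1 (h.eventually (eventually_lt_nhds
    (show (0 : ℝ) < 1 / 4 by norm_num)))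
  refine ⟨N, fun n hn => ?_⟩
  have h1 := hN (n + 2) (by omega)
  rw [div_lt_iff₀ (by positivity), pow_add (2 : ℝ)] at h1
  have h2 : (((n + 2) ^ ((2 * d + 3) * d + 3) : ℕ) : ℝ) ≤ ((2 ^ n : ℕ) : ℝ) := by
    push_cast at h1 ⊢
    linarith
  have h3 := (two_pow_rr d n).trans (Nat.cast_le.1 h2)
  exact (Nat.pow_le_pow_iff_right (by norm_num)).1 h3

theorem sum_testBit {r v : ℕ} (h : v < 2 ^ r) :
    ∑ i ∈ range r, (if v.testBit i = true then 2 ^ i else 0) = v := by
  have key : ∀ r : ℕ, ∑ i ∈ range r, (if v.testBit i = true then 2 ^ i else 0) = v % 2 ^ r := by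
    intro r
    induction r with
    | zero => simp [Nat.mod_one]
    | succ r ih =>
      rw [Finset.sum_range_succ, ih, Nat.mod_pow_succ, Nat.testBit_eq_decide_div_mod_eq]
      rcases Nat.mod_two_eq_zero_or_one (v / 2 ^ r) with h | h <;> simp [h]
  rw [key, Nat.mod_eq_of_lt h]

/-- With `r = rr d n ≤ n`: the map sending `x` to its first `r` bits and the weighted sum of the
other bits (below `2 ^ r`, `Nat.lt_size_self`) has at most `4 ^ r` values; take a largest class,
with sum `v`, and overwrite the first `r` bits by the bits of `v` (injective on the class). If `P`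
has a coordinate below `r`, no difference set contains it. Otherwise flipping `P` keeps the left
sum and changes the right sum by a signed sum of weights, nonzero by `sidon`. -/
theorem code (d : ℕ) : ∃ b N : ℕ, ∀ n, N ≤ n → ∃ Cd : Finset (Fin n → Bool),
    (∀ x ∈ Cd, lang d (List.ofFn x) = true) ∧
    (∀ x ∈ Cd, ∀ P : Finset (Fin n), P.Nonempty → P.card ≤ d →
      ¬ lang d (List.ofFn (flp x P)) = true ∨ ∀ y ∈ Cd, ¬ P ⊆ df x y) ∧
    2 ^ n ≤ Cd.card * (n + 2) ^ b := by
  obtain ⟨N, hN⟩ := rr_le d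
  refine ⟨2 * ((2 * d + 3) * d + 3), N, fun n hn => ?_⟩
  have hr := hN n hn
  let R : (Fin n → Bool) → ℕ := fun x =>
    ∑ i : Fin n, (if x i = true ∧ rr d n ≤ (i : ℕ) then (bb d n + (i : ℕ)) ^ d else 0)
  have hR : ∀ x, R x < 2 ^ rr d n := by
    intro x
    refine lt_of_le_of_lt ?_ (Nat.lt_size_self _)
    have := Finset.sum_le_card_nsmul (univ : Finset (Fin n))
      (fun i => if x i = true ∧ rr d n ≤ (i : ℕ) then (bb d n + (i : ℕ)) ^ d else 0)
      ((bb d n + n) ^ d) fun i _ => by
        split_ifs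
        · exact Nat.pow_le_pow_left (by omega) d
        · exact Nat.zero_le _
    simpa using this
  let ψ : (Fin n → Bool) → ℕ × (Fin (rr d n) → Bool) := fun x =>
    (R x, fun i => x (Fin.castLE hr i))
  let t : Finset (ℕ × (Fin (rr d n) → Bool)) := range (2 ^ rr d n) ×ˢ univ
  have hψ : ∀ x ∈ (univ : Finset (Fin n → Bool)), ψ x ∈ t := fun x _ =>
    mem_product.2 ⟨mem_range.2 (hR x), mem_univ _⟩
  obtain ⟨y, hy, hmax⟩ := exists_max_image t
    (fun b => (univ.filter fun a => ψ a = b).card) ⟨_, hψ (fun _ => false) (mem_univ _)⟩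
  have hcard := card_le_mul_card_image_of_maps_to hψ _ hmax
  have hv : y.1 < 2 ^ rr d n := mem_range.1 (mem_product.1 hy).1
  let Cd : Finset (Fin n → Bool) := univ.filter fun z =>
    R z = y.1 ∧ ∀ i : Fin n, (i : ℕ) < rr d n → z i = y.1.testBit i
  have hL : ∀ z : Fin n → Bool, (∀ i : Fin n, (i : ℕ) < rr d n → z i = y.1.testBit i) →
      ∑ i : Fin n, (if z i = true ∧ (i : ℕ) < rr d n then 2 ^ (i : ℕ) else 0) = y.1 := by
    intro z hz
    have e1 : ∑ i : Fin n, (if z i = true ∧ (i : ℕ) < rr d n then 2 ^ (i : ℕ) else 0) =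
        ∑ i ∈ range n, (if y.1.testBit i = true ∧ i < rr d n then 2 ^ i else 0) := by
      rw [Finset.sum_range]
      refine Finset.sum_congr rfl fun i _ => ?_
      by_cases hi : (i : ℕ) < rr d n
      · rw [hz i hi]
      · simp [hi]
    rw [e1, ← sum_subset (range_subset_range.2 hr)]
    · refine Eq.trans (Finset.sum_congr rfl fun i hi => ?_) (sum_testBit hv)
      simp [mem_range.1 hi]
    · intro i _ hi
      simp only [mem_range] at hi
      simp [hi]
  refine ⟨Cd, fun x hx => ?_, fun x hx P hP hd => ?_, ?_⟩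
  · obtain ⟨h1, h2⟩ := (mem_filter.1 hx).2
    rw [lang_iff, hL x h2]
    exact h1.symm
  · obtain ⟨h1, h2⟩ := (mem_filter.1 hx).2
    by_cases hlow : ∃ i ∈ P, (i : ℕ) < rr d n
    · obtain ⟨i, hi, hir⟩ := hlow
      refine Or.inr fun z hz hsub => ?_
      exact mem_df.1 (hsub hi) ((h2 i hir).trans ((mem_filter.1 hz).2.2 i hir).symm)
    · push Not at hlow
      refine Or.inl fun hl => ?_
      rw [lang_iff, hL _ fun i hi => by
        have : i ∉ P := fun h => absurd (hlow i h) (by omega)
        simp [flp, this, h2 i hi]] at hl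
      have h3 : R (flp x P) = R x := hl.symm.trans h1.symm
      refine sidon P hP hd (fun i => if x i = true then -1 else 1)
        (fun i _ => by by_cases h : x i = true <;> simp [h]) ?_
      have h4 : ((R (flp x P) : ℕ) : ℤ) - (R x : ℕ) = 0 := by rw [h3, sub_self]
      rw [← h4]
      simp only [R]
      push_cast
      rw [← Finset.sum_sub_distrib, ← sum_subset (subset_univ P)]
      · refine Finset.sum_congr rfl fun i hi => ?_
        have := hlow i hi
        cases hx : x i <;> simp [flp, hi, hx, this]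
      · intro i _ hi
        simp [flp, hi]
  · have h1 : (univ.filter fun a => ψ a = y).card ≤ Cd.card := by
      refine card_le_card_of_injOn
        (fun x i => if (i : ℕ) < rr d n then y.1.testBit i else x i) ?_ ?_
      · intro x hx
        have hx' : ψ x = y := (mem_filter.1 hx).2
        refine mem_coe.2 (mem_filter.2 ⟨mem_univ _, ?_, fun i hi => by simp [hi]⟩)
        rw [← hx']
        refine Finset.sum_congr rfl fun i _ => ?_
        by_cases hi : (i : ℕ) < rr d n
        · have : ¬ rr d n ≤ (i : ℕ) := by omega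
          simp [this]
        · simp [hi]
      · intro x hx x' hx' e
        have e1 : ψ x = ψ x' := ((mem_filter.1 hx).2).trans ((mem_filter.1 hx').2).symm
        funext i
        by_cases hi : (i : ℕ) < rr d n
        · exact congrFun (congrArg Prod.snd e1) ⟨i, hi⟩
        · simpa [hi] using congrFun e i
    have h2 : t.card = 2 ^ rr d n * 2 ^ rr d n := by simp [t]
    have h3 := two_pow_rr d n
    have h4 : (univ : Finset (Fin n → Bool)).card = 2 ^ n := by simp
    rw [h4, h2] at hcard
    refine hcard.trans (Nat.mul_le_mul h1 ?_)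
    rw [two_mul, pow_add]
    exact Nat.mul_le_mul h3 h3

end Vale.Agent.P336C
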