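import Vale.Agent.P336C.CaseH
import Vale.Agent.P336C.CaseN

/-! The improved coding lemma. -/

namespace Vale.Agent.P336C

open Finset Vale.Agent.P151

theorem Cover.sub {ι : Type} [Fintype ι] [DecidableEq ι] {A A' : Finset (ι → Bool)} (h : A' ⊆ A)
    {x : ι → Bool} {k : ℕ} {P Q : Finset ι} (hc : Cover (fam A x) k P Q) :
    Cover (fam A' x) k P Q :=
  ⟨hc.1, hc.2.1, fun T hT => hc.2.2 T (Finset.image_subset_image h hT)⟩

theorem coding_sub {ι : Type} [Fintype ι] [DecidableEq ι] {A A' : Finset (ι → Bool)}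
    (h : A' ⊆ A) {k d d' : ℕ} (hd : d' ≤ d) (hc : Cvd A k d) : Cvd A' k d' :=
  fun x hx P h1 h2 => (hc x (h hx) P h1 (h2.trans hd)).imp fun _ h3 => h3.sub h

theorem coding_pow {α : Type} {A : Finset α} {x y : ℝ} (hxy : x ≤ y)
    (h : A.Nonempty → Real.log A.card ≤ Real.log 2 * x) : (A.card : ℝ) ≤ (2 : ℝ) ^ y := by
  rcases A.eq_empty_or_nonempty with rfl | hA
  · simpa using Real.rpow_nonneg two_pos.le y
  · have h1 : (0 : ℝ) < A.card := by exact_mod_cast hA.card_pos
    rw [Real.rpow_def_of_pos two_pos, ← Real.exp_log h1]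
    exact Real.exp_le_exp.2 ((h hA).trans
      (mul_le_mul_of_nonneg_left hxy (Real.log_nonneg one_le_two)))

/-- `d` is the maximum of the two depths and `1`, `c` the minimum of the constants. Choose covers
`Q x a` of the points, split `A` by the hub condition; each part has at most
`2 ^ (n - c * n / k)` points (empty parts are trivial). -/
theorem coding : ∃ (d k0 : ℕ) (c : ℝ), 1 ≤ k0 ∧ Real.pi ^ 2 / 6 < c ∧
    ∀ (ι : Type) [Fintype ι] [DecidableEq ι], 0 < Fintype.card ι → ∀ k, k0 ≤ k →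
      ∀ A : Finset (ι → Bool), Cvd A k d →
        (A.card : ℝ) ≤ 2 * (2 : ℝ) ^ ((Fintype.card ι : ℝ) - c * Fintype.card ι / k) := by
  obtain ⟨K, d1, k1, c1, hK, a1, h1⟩ := caseH
  obtain ⟨d2, k2, c2, a2, h2⟩ := caseN hK
  refine ⟨max 1 (max d1 d2), max 1 (max k1 k2), min c1 c2, le_max_left _ _, lt_min a1 a2,
    fun ι _ _ hn k hk A hA => ?_⟩
  have h3 : ∀ x ∈ A, ∀ a, ∃ Q, Cover (fam A x) k {a} Q := fun x hx a =>
    hA x hx {a} (Finset.singleton_nonempty a) (by simp)
  choose! Q hQ using h3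
  have h4 : ∀ c' : ℝ, min c1 c2 ≤ c' → (Fintype.card ι : ℝ) - c' * Fintype.card ι / k ≤
      Fintype.card ι - min c1 c2 * Fintype.card ι / k := fun c' hc =>
    sub_le_sub_left (div_le_div_of_nonneg_right
      (mul_le_mul_of_nonneg_right hc (Nat.cast_nonneg _)) (Nat.cast_nonneg _)) _
  let w : (ι → Bool) → Prop := fun x =>
    (Fintype.card ι : ℝ) * k / 8 ≤ ∑ a, ((Q x a ∩ hub (Q x) K k).card : ℝ)
  classical
  have b1 := coding_pow (A := A.filter w) (h4 c1 (min_le_left _ _)) fun hne =>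
    h1 ι hn k (by omega) _ hne (coding_sub (Finset.filter_subset _ _) (by omega) hA) Q
      (fun x hx a => (hQ x (Finset.mem_filter.1 hx).1 a).sub (Finset.filter_subset _ _))
      fun x hx => (Finset.mem_filter.1 hx).2
  have b2 := coding_pow (A := A.filter fun x => ¬w x) (h4 c2 (min_le_right _ _)) fun hne =>
    h2 ι hn k (by omega) _ hne (coding_sub (Finset.filter_subset _ _) (by omega) hA) Q
      (fun x hx a => (hQ x (Finset.mem_filter.1 hx).1 a).sub (Finset.filter_subset _ _))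
      fun x hx => (not_le.1 (Finset.mem_filter.1 hx).2).le
  have b3 : (((A.filter w).card + (A.filter fun x => ¬w x).card : ℕ) : ℝ) = A.card := by
    rw [Finset.card_filter_add_card_filter_not]
  rw [Nat.cast_add] at b3
  linarith

end Vale.Agent.P336C
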