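import Mathlib

/-! Depth-three OR-AND-OR circuits. -/

namespace Vale.Agent.P336C

/-- An input of a bottom gate: a literal (variable and sign) or a constant. -/
abbrev Inp (n : ℕ) : Type := (Fin n × Bool) ⊕ Bool

/-- The input is true at the point `x`. -/
def Holds {n : ℕ} (x : Fin n → Bool) : Inp n → Prop
  | Sum.inl l => x l.1 = l.2
  | Sum.inr b => b = true

/-- `nb` bottom OR gates, `nm` middle AND gates, one top OR gate. -/
structure Circuit (n : ℕ) where
  /-- number of bottom gates -/
  nb : ℕ
  /-- number of middle gates -/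
  nm : ℕ
  /-- inputs of a bottom gate -/
  bot : Fin nb → Finset (Inp n)
  /-- bottom gates read by a middle gate -/
  mid : Fin nm → Finset (Fin nb)
  /-- middle gates read by the top gate -/
  top : Finset (Fin nm)

/-- Total number of gates. -/
def Circuit.size {n : ℕ} (C : Circuit n) : ℕ := C.nb + C.nm + 1

/-- The circuit outputs one at `x`. -/
def Circuit.Accepts {n : ℕ} (C : Circuit n) (x : Fin n → Bool) : Prop :=
  ∃ j ∈ C.top, ∀ g ∈ C.mid j, ∃ l ∈ C.bot g, Holds x l

end Vale.Agent.P336C
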