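import Vale.Agent.P151.Ex
import Vale.Agent.P336C.Stmt

/-! Definitions used in the proof. -/

namespace Vale.Agent.P336C

open Finset Vale.Agent.P151

variable {ι : Type} [Fintype ι] [DecidableEq ι]

/-- Expectation over a `p`-random subset. -/
noncomputable def E (p : ℝ) (f : Finset ι → ℝ) : ℝ := Ex (fun _ => p) univ f

/-- The odds. -/
noncomputable def th (p : ℝ) : ℝ := p / (1 - p)

/-- Some member of `D` contains `P` and lies inside `S ∪ P`. -/
def Alive (D : Finset (Finset ι)) (P S : Finset ι) : Prop := ∃ T ∈ D, P ⊆ T ∧ T ⊆ S ∪ P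

/-- `Q` is small, avoids `P` and meets every member of `D` that contains `P`. -/
def Cover (D : Finset (Finset ι)) (k : ℕ) (P Q : Finset ι) : Prop :=
  Q.card ≤ k ∧ Disjoint P Q ∧ ∀ T ∈ D, P ⊆ T → ∃ l ∈ Q, l ∈ T

/-- Survival probability of `P` when the elements of `M` are removed. -/
noncomputable def sv (p : ℝ) (D : Finset (Finset ι)) (P M : Finset ι) : ℝ :=
  E p fun S => ind (Alive D P (S \ M))

/-- Number of members of `D` inside `S`. -/
noncomputable def cnt (D : Finset (Finset ι)) (S : Finset ι) : ℝ :=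
  ((D.filter fun T => T ⊆ S).card : ℝ)

/-- The posterior of `i` in the fibre of `S` is not trivial and far from one half. -/
def Bias (D : Finset (Finset ι)) (i : ι) (S : Finset ι) : Prop :=
  cnt D (S.erase i) < cnt D S ∧ 1 / 10 ≤ |cnt D (S.erase i) / cnt D S - 1 / 2|

/-- Truncation of the series of `-log (1 - z) / z`. -/
noncomputable def cR (R : ℕ) (z : ℝ) : ℝ := ∑ r ∈ range R, z ^ r / ((r : ℝ) + 1)

/-- Coordinates where two points differ. -/
def df (x y : ι → Bool) : Finset ι := univ.filter fun i => x i ≠ y i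

/-- The difference sets seen from `x`. -/
def fam (A : Finset (ι → Bool)) (x : ι → Bool) : Finset (Finset ι) := A.image (df x)

/-- Flip the coordinates in `P`. -/
def flp (x : ι → Bool) (P : Finset ι) : ι → Bool := fun i => if i ∈ P then !x i else x i

/-- Every small nonempty set has a cover, at every point of `A`. -/
def Cvd (A : Finset (ι → Bool)) (k d : ℕ) : Prop :=
  ∀ x ∈ A, ∀ P : Finset ι, P.Nonempty → P.card ≤ d → ∃ Q, Cover (fam A x) k P Q

/-- In-neighbours. -/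
def inn (Q : ι → Finset ι) (b : ι) : Finset ι := univ.filter fun a => b ∈ Q a

/-- Vertices of large in-degree. -/
def hub (Q : ι → Finset ι) (K k : ℕ) : Finset ι := univ.filter fun b => K * k < (inn Q b).card

/-- Standing hypotheses near the time `2 log 2 / k`. -/
structure Setup (D : Finset (Finset ι)) (k : ℕ) (p δ : ℝ) : Prop where
  p0 : 0 < p
  p1 : p < 1
  lo : 1 ≤ (k : ℝ) * th p
  hi : (k : ℝ) * th p ≤ 2 * Real.log 2
  kk : 1000 ≤ k
  d0 : 0 ≤ δ
  d1 : δ ≤ 1 / 10 ^ 6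
  up : ∀ P : Finset ι, P.Nonempty → P.card ≤ 3 → sv p D P ∅ ≤ 1 / 2 + δ

/-- Chosen covers of points and of edges. -/
structure Cov (D : Finset (Finset ι)) (k : ℕ) (Q : ι → Finset ι) (Q2 : ι → ι → Finset ι) :
    Prop where
  one : ∀ a, Cover D k {a} (Q a)
  two : ∀ a l, l ∈ Q a → Cover D k {a, l} (Q2 a l)

/-- Total deficiency. -/
noncomputable def dfc (p δ : ℝ) (D : Finset (Finset ι)) : ℝ := ∑ a, (1 / 2 + δ - sv p D {a} ∅)

/-- The triples `(a, b, l)` that are used. -/
def trip (Q : ι → Finset ι) (H : Finset ι) : Finset (ι × ι × ι) :=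
  univ.filter fun t => t.2.1 ∈ Q t.1 ∧ t.2.1 ∉ H ∧ t.2.2 ∈ Q t.2.1 ∧ t.2.2 ≠ t.1 ∧
    (t.2.2 ∈ Q t.1 → t.2.2 ∉ H ∧ t.2.1 ∈ Q t.2.2)

/-- The set that is cleared for the triple `(a, b, l)`. -/
def mm (Q : ι → Finset ι) (Q2 : ι → ι → Finset ι) (a l : ι) : Finset ι :=
  insert a (Q a ∪ if l ∈ Q a then Q2 a l else ∅)

/-- The good event of a triple. -/
def Gd (D : Finset (Finset ι)) (Q : ι → Finset ι) (Q2 : ι → ι → Finset ι) (L : ℕ)
    (t : ι × ι × ι) (S : Finset ι) : Prop :=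
  S ∩ insert t.2.2 (mm Q Q2 t.1 t.2.2) = {t.1, t.2.1, t.2.2} ∧ Alive D {t.1, t.2.1} S ∧
    Alive D {t.2.1, t.2.2} (S.erase t.1) ∧ (S ∩ (Q t.2.1 ∪ inn Q t.2.1)).card ≤ L + 3

/-- Expected number of biased unrevealed coordinates. -/
noncomputable def bsum (p : ℝ) (D : Finset (Finset ι)) : ℝ :=
  ∑ i, E p fun S => ind (i ∈ S ∧ Bias D i S)

/-- `p` times the derivative of the expected cost. -/
noncomputable def drift (lam : Finset ι → ℝ) (H : Finset ι) (p : ℝ) : ℝ :=
  E p fun S => ∑ i ∈ S, (lam (S \ H) - lam (S.erase i \ H))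

/-- The conclusion of the calculus lemma. -/
def CalcSpec (R k : ℕ) (δ ε g : ℝ) : Prop :=
  ∀ Λ e : ℝ → ℝ, (∀ p, HasDerivAt Λ (e p) p) → Λ 0 = 0 →
    (∀ z p : ℝ, 0 ≤ z → z ≤ 1 → 0 < p → p < 1 → (k : ℝ) * th p ≤ cR R z → e p ≤ z + δ) →
    (∀ p : ℝ, 0 < p → p < 1 → 1 ≤ (k : ℝ) * th p → (k : ℝ) * th p ≤ cR R (1 / 2) →
      e p ≤ 1 / 2 - ε) →
    Λ (cR R 1 / (k + cR R 1)) ≤ cR R 1 / (k + cR R 1) - g / k

/-- Base of the digits. -/
def bb (d n : ℕ) : ℕ := (n + 2) ^ (2 * d + 2)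

/-- Number of check bits. -/
def rr (d n : ℕ) : ℕ := (n * (bb d n + n) ^ d).size

/-- The language: the first bits, read in binary, give a weighted sum of the other bits. -/
def lang (d : ℕ) (w : List Bool) : Bool :=
  ((List.range w.length).map fun i =>
      bif w.getD i false && Nat.blt i (rr d w.length) then 2 ^ i else 0).sum ==
    ((List.range w.length).map fun i =>
      bif w.getD i false && Nat.ble (rr d w.length) i then (bb d w.length + i) ^ d else 0).sum

end Vale.Agent.P336C
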