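import Vale.Agent.P336C.TStar
import Vale.Agent.P336C.Comb

/-! The good event: its probability, and the bias that it forces. -/

namespace Vale.Agent.P336C

open Finset Vale.Agent.P151

variable {ι : Type} [Fintype ι] [DecidableEq ι] {D : Finset (Finset ι)} {k K L : ℕ} {p δ : ℝ}
  {Q : ι → Finset ι} {Q2 : ι → ι → Finset ι}

theorem Good_ne (hc : Cov D k Q Q2) {H : Finset ι} {a b l : ι} (ht : (a, b, l) ∈ trip Q H) :
    a ≠ b ∧ a ≠ l ∧ b ≠ l := by
  obtain ⟨h1, -, h3, h4, -⟩ := mem_trip.1 ht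
  exact ⟨fun e => disjoint_singleton_left.1 (hc.one a).2.1 (e ▸ h1), h4.symm,
    fun e => disjoint_singleton_left.1 (hc.one b).2.1 (e ▸ h3)⟩

theorem Good_sub {S : Finset ι} {a b l : ι} (hg : Gd D Q Q2 L (a, b, l) S) :
    a ∈ S ∧ b ∈ S ∧ l ∈ S := by
  have h : ({a, b, l} : Finset ι) ⊆ S := hg.1 ▸ inter_subset_left
  exact ⟨h (by simp), h (by simp), h (by simp)⟩

theorem Good_lt {S T : Finset ι} {i : ι} (hT : T ∈ D) (hS : T ⊆ S) (hi : i ∈ T) :
    cnt D (S.erase i) < cnt D S := by
  unfold cnt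
  refine Nat.cast_lt.2 (card_lt_card ((ssubset_iff_of_subset fun U hU => ?_).2
    ⟨T, mem_filter.2 ⟨hT, hS⟩, fun h => ?_⟩))
  · rw [mem_filter] at hU ⊢
    exact ⟨hU.1, hU.2.trans (erase_subset _ _)⟩
  · rw [mem_filter] at h
    exact notMem_erase i S (h.2 hi)

/-- `a, b, l` are distinct. Let `N = insert l (mm Q Q2 a l) ⊇ {a, b, l}`, `|N \ {a, b, l}| ≤ 2 * k`.
`E_pin` with `g R = ind (Alive D {a, b} (insert l R)) * ind (Alive D {b, l} R)` and `E_fkg`: the
first three conditions of `Gd` hold with probability at least `p ^ 3 * (1 / 16) * q1 * q2`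
(`exp_th_le`, `exp (-(4 * log 2)) = 1 / 16`). The last condition fails, together with
`S ∩ {a, b, l} = {a, b, l}`, with probability at most `p ^ 3 * p * (K + 1) * k / L`: the indicator
is at most `ind (..) * |(S \ {a, b, l}) ∩ (Q b ∪ inn Q b)| / L`; `E_pin`, `E_card`, `p_le`. -/
theorem good_prob (hs : Setup D k p δ) (hc : Cov D k Q Q2) (hL : 0 < L) {a b l : ι}
    (ht : (a, b, l) ∈ trip Q (hub Q K k)) :
    p ^ 3 * (sv p D {a, b} (mm Q Q2 a l) * sv p D {b, l} (mm Q Q2 a l) / 16 - 2 * (K + 1) / L) ≤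
      E p fun S => ind (Gd D Q Q2 L (a, b, l) S) := by
  obtain ⟨n1, n2, n3⟩ := Good_ne hc ht
  obtain ⟨h1, h2, -, -, -⟩ := mem_trip.1 ht
  have p0 := hs.p0.le
  have p1 := hs.p1.le
  have L0 : (0 : ℝ) < L := by exact_mod_cast hL
  set M := mm Q Q2 a l with hM
  set U := Q b ∪ inn Q b with hU
  have aM : a ∈ M := mem_insert_self _ _
  have c3 : ({a, b, l} : Finset ι).card = 3 := card_eq_three.2 ⟨a, b, l, n1, n2, n3, rfl⟩
  have s1 : ({a, b, l} : Finset ι) ⊆ insert l M := by
    simp only [insert_subset_iff, singleton_subset_iff]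
    exact ⟨mem_insert_of_mem aM, mem_insert_of_mem (mem_insert_of_mem (mem_union_left _ h1)),
      mem_insert_self _ _⟩
  have c2 : (insert l M \ {a, b, l}).card ≤ 2 * k := by
    refine (card_le_card (t := Q a ∪ if l ∈ Q a then Q2 a l else ∅) fun x hx => ?_).trans
      ((card_union_le _ _).trans ?_)
    · simp only [hM, mm, mem_sdiff, mem_insert, mem_singleton, not_or] at hx
      exact (hx.1.resolve_left hx.2.2.2).resolve_left hx.2.1
    · have := (hc.one a).1
      split_ifs with h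
      · have := (hc.two a l h).1
        omega
      · rw [card_empty]
        omega
  have e1 := E_pin (p := p) s1 fun R => ind (Alive D {a, b} (insert l R)) * ind (Alive D {b, l} R)
  have e2 := E_pin (p := p) (Subset.refl ({a, b, l} : Finset ι)) fun R => ((R ∩ U).card : ℝ) / L
  rw [c3] at e1 e2
  rw [sdiff_self, bot_eq_empty, card_empty, pow_zero, mul_one] at e2
  have f1 : sv p D {a, b} M * sv p D {b, l} M ≤ E p fun S =>
      ind (Alive D {a, b} (insert l (S \ insert l M))) * ind (Alive D {b, l} (S \ insert l M)) := by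
    refine le_trans (mul_le_mul (E_mono p0 p1 fun S => ind_mono fun h => h.mono fun x hx => ?_)
      (E_mono p0 p1 fun S => ind_mono ?_) (sv_nonneg p0 p1) (E_nonneg p0 p1 fun S => ind_nonneg _))
      (E_fkg p0 p1 (fun S S' h => ind_mono fun h' => h'.mono (insert_subset_insert _
        (sdiff_subset_sdiff h (Subset.refl _))))
        fun S S' h => ind_mono fun h' => h'.mono (sdiff_subset_sdiff h (Subset.refl _)))
    · simp only [mem_sdiff, mem_insert] at hx ⊢
      tauto
    · rintro ⟨T, t1, t2, t3⟩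
      refine ⟨T, t1, t2, t3.trans fun x hx => ?_⟩
      simp only [mem_union, mem_sdiff, mem_insert, mem_singleton] at hx ⊢
      tauto
  have f2 : 1 / 16 ≤ (1 - p) ^ (insert l M \ {a, b, l}).card := by
    refine le_trans ?_ (exp_th_le p0 hs.p1 _)
    have a1 : ((insert l M \ {a, b, l}).card : ℝ) ≤ 2 * k := by exact_mod_cast c2
    have a2 := mul_le_mul_of_nonneg_left a1 (th_nonneg p0 hs.p1)
    have a3 : Real.exp (-((4 : ℕ) * Real.log 2)) = 1 / 16 := by
      rw [Real.exp_neg, Real.exp_nat_mul, Real.exp_log two_pos]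
      norm_num
    rw [← a3, Real.exp_le_exp]
    push_cast
    linarith [hs.hi]
  have f3 : (E p fun S => (((S \ {a, b, l}) ∩ U).card : ℝ) / L) ≤ 2 * (K + 1) / L := by
    simp only [div_eq_mul_inv]
    rw [E_mul_right]
    refine mul_le_mul_of_nonneg_right ((E_mono p0 p1 (g := fun S => ((S ∩ U).card : ℝ)) fun S => by
      exact_mod_cast card_le_card (inter_subset_inter_right sdiff_subset)).trans ?_) (by positivity)
    have a1 : (U.card : ℝ) ≤ k + K * k := by
      exact_mod_cast (card_union_le _ _).trans (add_le_add (hc.one b).1 (inn_le h2))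
    have a2 := mul_le_mul_of_nonneg_left a1 p0
    have a3 := mul_le_mul_of_nonneg_left hs.p_le (by positivity : (0 : ℝ) ≤ K + 1)
    have a4 : (0 : ℝ) ≤ K := Nat.cast_nonneg K
    rw [E_card]
    linarith
  have f4 : (E p fun S => ind (S ∩ insert l M = {a, b, l}) *
      (ind (Alive D {a, b} (insert l (S \ insert l M))) * ind (Alive D {b, l} (S \ insert l M)))) ≤
      E p fun S => ind (Gd D Q Q2 L (a, b, l) S) + ind (S ∩ {a, b, l} = {a, b, l}) *
        ((((S \ {a, b, l}) ∩ U).card : ℝ) / L) := by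
    refine E_mono p0 p1 fun S => ?_
    rw [← ind_and, ← ind_and]
    have a0 : 0 ≤ ind (S ∩ {a, b, l} = {a, b, l}) * ((((S \ {a, b, l}) ∩ U).card : ℝ) / L) :=
      mul_nonneg (ind_nonneg _) (by positivity)
    by_cases h : S ∩ insert l M = {a, b, l} ∧ Alive D {a, b} (insert l (S \ insert l M)) ∧
      Alive D {b, l} (S \ insert l M)
    swap
    · rw [ind_neg h]
      exact add_nonneg (ind_nonneg _) a0
    obtain ⟨g1, g2, g3⟩ := id h
    have a1 : ({a, b, l} : Finset ι) ⊆ S := g1 ▸ inter_subset_left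
    rw [ind_pos h]
    by_cases h' : (S ∩ U).card ≤ L + 3
    · rw [ind_pos (P := Gd D Q Q2 L (a, b, l) S) ⟨g1, g2.mono (insert_subset (a1 (by simp))
        sdiff_subset), g3.mono fun x hx => mem_erase.2 ⟨fun e => (mem_sdiff.1 hx).2
          (e ▸ mem_insert_of_mem aM), (mem_sdiff.1 hx).1⟩, h'⟩]
      linarith
    · have a2 : (S ∩ U).card ≤ ((S \ {a, b, l}) ∩ U).card + 3 := by
        rw [← c3]
        refine (card_le_card fun x hx => ?_).trans (card_union_le _ _)
        simp only [mem_union, mem_inter, mem_sdiff] at hx ⊢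
        tauto
      have a3 : (L : ℝ) ≤ ((S \ {a, b, l}) ∩ U).card := by exact_mod_cast (by omega)
      rw [ind_pos (inter_eq_right.2 a1), one_mul]
      linarith [ind_nonneg (Gd D Q Q2 L (a, b, l) S), (one_le_div L0).2 a3]
  rw [E_add, e1, e2] at f4
  have p3 := pow_nonneg p0 3
  have f5 := mul_le_mul_of_nonneg_left (mul_le_mul f2 f1 (mul_nonneg (sv_nonneg p0 p1)
    (sv_nonneg p0 p1)) (le_trans (by norm_num) f2)) p3
  have f6 := mul_le_mul_of_nonneg_left f3 p3
  linarith

/-- In the good event every `T ∈ D` inside `S` that contains `a` contains `b`: it meets `Q a` in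
`b` or `l`, and in the second case it meets `Q2 a l` in `b`. -/
theorem good_imp (hc : Cov D k Q Q2) {H S : Finset ι} {a b l : ι} (ht : (a, b, l) ∈ trip Q H)
    (hg : Gd D Q Q2 L (a, b, l) S) : ∀ T ∈ D, T ⊆ S → a ∈ T → b ∈ T := by
  intro T hT hS ha
  have key : ∀ x ∈ T, x ∈ mm Q Q2 a l → x = a ∨ x = b ∨ x = l := fun x h1 h2 => by
    have h : x ∈ S ∩ insert l (mm Q Q2 a l) := mem_inter.2 ⟨hS h1, mem_insert_of_mem h2⟩
    rw [hg.1] at h
    simpa using h
  obtain ⟨x, x1, x2⟩ := (hc.one a).2.2 T hT (singleton_subset_iff.2 ha)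
  rcases key x x2 (mem_insert_of_mem (mem_union_left _ x1)) with rfl | rfl | rfl
  · exact absurd x1 (disjoint_singleton_left.1 (hc.one x).2.1)
  · exact x2
  obtain ⟨y, y1, y2⟩ := (hc.two a x x1).2.2 T hT (insert_subset ha (singleton_subset_iff.2 x2))
  have hd := disjoint_right.1 (hc.two a x x1).2.1 y1
  rcases key y y2 (mem_insert_of_mem (mem_union_right _ (by rwa [if_pos x1]))) with rfl | rfl | rfl
  · exact absurd (by simp) hd
  · exact y2
  · exact absurd (by simp) hd

/-- `cnt D (S.erase b) = cnt D ((S.erase a).erase b)` by `good_imp`, so the posterior of `b` in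
`S` is the product of the posterior of `a` in `S` and of `b` in `S.erase a`; `0.6 * 0.6 < 0.4`.
All counts are at least one, and the three strict inequalities come from the two witnesses. -/
theorem good_bias (h0 : ∅ ∈ D) (hc : Cov D k Q Q2) {H S : Finset ι} {a b l : ι}
    (ht : (a, b, l) ∈ trip Q H) (hg : Gd D Q Q2 L (a, b, l) S) :
    Bias D a S ∨ Bias D b S ∨ Bias D b (S.erase a) := by
  obtain ⟨n1, n2, -⟩ := Good_ne hc ht
  obtain ⟨m1, m2, m3⟩ := Good_sub hg
  obtain ⟨T, t1, t2, t3⟩ := hg.2.1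
  obtain ⟨T', u1, u2, u3⟩ := hg.2.2.1
  have t4 : T ⊆ S := t3.trans (union_subset (Subset.refl _)
    (insert_subset m1 (singleton_subset_iff.2 m2)))
  have u4 : T' ⊆ S.erase a := u3.trans (union_subset (Subset.refl _)
    (insert_subset (mem_erase.2 ⟨n1.symm, m2⟩) (singleton_subset_iff.2 (mem_erase.2 ⟨n2.symm, m3⟩))))
  have l1 := Good_lt t1 t4 (i := a) (t2 (by simp))
  have l2 := Good_lt t1 t4 (i := b) (t2 (by simp))
  have l3 := Good_lt u1 u4 (i := b) (u2 (by simp))
  have e : cnt D (S.erase b) = cnt D ((S.erase a).erase b) := by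
    unfold cnt
    congr 2
    refine filter_congr fun V hV => ⟨fun h x hx => ?_,
      fun h => h.trans (erase_subset_erase _ (erase_subset _ _))⟩
    refine mem_erase.2 ⟨(mem_erase.1 (h hx)).1, mem_erase.2 ⟨fun e => ?_, (mem_erase.1 (h hx)).2⟩⟩
    exact notMem_erase b S (h (good_imp hc ht hg V hV (h.trans (erase_subset _ _)) (e ▸ hx)))
  have c0 : 0 ≤ cnt D ((S.erase a).erase b) := Nat.cast_nonneg _
  by_contra h
  simp only [Bias, not_or, not_and, not_le] at h
  have b1 := (abs_lt.1 (h.1 l1)).2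
  have b2 := (abs_lt.1 (h.2.1 l2)).1
  have b3 := (abs_lt.1 (h.2.2 l3)).2
  rw [sub_lt_iff_lt_add, div_lt_iff₀ (by linarith)] at b1 b3
  rw [lt_sub_iff_add_lt, lt_div_iff₀ (by linarith), e] at b2
  linarith

end Vale.Agent.P336C
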