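import Vale.Agent.P336C.Prob

/-! One step of the tree recursion. -/

namespace Vale.Agent.P336C

open Finset Vale.Agent.P151

variable {ι : Type} [Fintype ι] [DecidableEq ι] {p : ℝ} {D : Finset (Finset ι)} {k : ℕ}
  {P Q : Finset ι}

theorem harris_fac {y : ℝ} (h0 : 0 ≤ p) (h1 : p < 1) (y0 : 0 ≤ y) (y1 : y ≤ 1) :
    Real.exp (-(th p * y)) ≤ 1 - p * y := by
  have h2 : 0 < 1 - p := sub_pos.2 h1
  have h3 : th p * (1 - p) = p := div_mul_cancel₀ _ h2.ne'
  have h4 := th_nonneg h0 h1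
  have h5 : 0 ≤ 1 - p * y := by nlinarith
  rw [Real.exp_neg, inv_le_iff_one_le_mul₀ (Real.exp_pos _)]
  refine le_trans ?_ (mul_le_mul_of_nonneg_left (Real.add_one_le_exp _) h5)
  have h6 : (1 - p * y) * (th p * y + 1) = 1 + th p * p * (y * (1 - y)) := by
    linear_combination y * h3
  rw [h6]
  exact le_add_of_nonneg_right (mul_nonneg (mul_nonneg h4 h0) (mul_nonneg y0 (sub_nonneg.2 y1)))

/-- Induction on `Q` with `E_fkg_anti`; one factor is `1 - p * y ≥ exp (-(th p * y))` for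
`y ∈ [0, 1]` (`E_mem` and `inv` give the factor; `1 - u ≥ exp (-(u / (1 - u)))`). -/
theorem hp (h0 : 0 ≤ p) (h1 : p < 1) (Q : Finset ι) (G : ι → Finset ι → Prop)
    (mono : ∀ l S S', S ⊆ S' → G l S → G l S') (inv : ∀ l ∈ Q, ∀ S, G l (insert l S) → G l S) :
    Real.exp (-(th p * ∑ l ∈ Q, E p fun S => ind (G l S))) ≤
      E p fun S => ind (∀ l ∈ Q, ¬ (l ∈ S ∧ G l S)) := by
  induction Q using Finset.induction_on with
  | empty => simp [ind_pos, E_const]
  | insert a Q ha ih =>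
    have h2 := ih fun l hl => inv l (mem_insert_of_mem hl)
    have h3 : Real.exp (-(th p * E p fun S => ind (G a S))) ≤
        E p fun S => ind (¬ (a ∈ S ∧ G a S)) := by
      have e : (fun S => ind (G a (insert a S))) = fun S => ind (G a S) := funext fun S =>
        ind_congr ⟨inv a (mem_insert_self a Q) S, mono a _ _ (subset_insert a S)⟩
      rw [E_ind_not]
      simp only [ind_and]
      rw [E_mem (fun S => ind (G a S)) a, e]
      exact harris_fac h0 h1 (E_nonneg h0 h1.le fun _ => ind_nonneg _)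
        ((E_mono h0 h1.le fun _ => ind_le_one _).trans (E_const 1).le)
    rw [sum_insert ha, mul_add, neg_add, Real.exp_add]
    simp only [forall_mem_insert, ind_and]
    refine (mul_le_mul h3 h2 (Real.exp_pos _).le (E_nonneg h0 h1.le fun _ => ind_nonneg _)).trans
      (E_fkg_anti h0 h1.le (fun S S' hS => ind_mono fun h h' => h ⟨hS h'.1, mono _ _ _ hS h'.2⟩)
        fun S S' hS => ind_mono fun h l hl h' => h l hl ⟨hS h'.1, mono _ _ _ hS h'.2⟩)

/-- `hp` on `Q \ M` with `G l S = Alive D (insert l P) (S \ M)`: if `Alive D P (S \ M)` holds with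
witness `T`, the cover gives `l ∈ Q ∩ T`, not in `P`, hence in `S \ M`. -/
theorem b1 (h0 : 0 ≤ p) (h1 : p < 1) (hc : Cover D k P Q) (M : Finset ι) :
    sv p D P M ≤ 1 - Real.exp (-(th p * ∑ l ∈ Q \ M, sv p D (insert l P) M)) := by
  have h := hp h0 h1 (Q \ M) (fun l S => Alive D (insert l P) (S \ M))
    (fun l S S' hS h => h.mono (sdiff_subset_sdiff hS subset_rfl))
    fun l _ S ⟨T, t1, t2, t3⟩ => ⟨T, t1, t2, fun x hx => by
      have := t3 hx
      simp only [mem_union, mem_sdiff, mem_insert] at this ⊢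
      tauto⟩
  refine le_sub_comm.1 (h.trans ?_)
  rw [sv, ← E_ind_not]
  refine E_mono h0 h1.le fun S => ind_mono fun h2 ⟨T, t1, t2, t3⟩ => ?_
  obtain ⟨l, hl, hT⟩ := hc.2.2 T t1 t2
  have h3 : l ∈ S \ M := (mem_union.1 (t3 hT)).resolve_right (disjoint_right.1 hc.2.1 hl)
  exact h2 l (mem_sdiff.2 ⟨hl, (mem_sdiff.1 h3).2⟩) ⟨(mem_sdiff.1 h3).1, T, t1,
    insert_subset hT t2, t3.trans (union_subset_union subset_rfl (subset_insert l P))⟩

theorem harris_exp (w : ℝ) : Real.exp (-w) = Real.exp (Real.log 2 - w) / 2 := by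
  rw [sub_eq_add_neg, Real.exp_add, Real.exp_log two_pos]
  ring

theorem tang (w : ℝ) : 1 - Real.exp (-w) ≤ 1 / 2 + (w - Real.log 2) / 2 := by
  rw [harris_exp]
  linarith [Real.add_one_le_exp (Real.log 2 - w)]

/-- `exp (-w) = exp v / 2` with `v = log 2 - w ≥ 0`, and `1 + v + v ^ 2 / 2 ≤ exp v`
(`Real.quadratic_le_exp_of_nonneg`). -/
theorem tang2 {w : ℝ} (h : w ≤ Real.log 2) :
    1 - Real.exp (-w) ≤ 1 / 2 + (w - Real.log 2) / 2 - (Real.log 2 - w) ^ 2 / 4 := by
  rw [harris_exp]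
  linarith [Real.quadratic_le_exp_of_nonneg (sub_nonneg.2 h)]

theorem tg (h0 : 0 ≤ p) (h1 : p < 1) (hk : 0 < k) (hi : (k : ℝ) * th p ≤ 2 * Real.log 2)
    (hc : Cover D k P Q) (M : Finset ι) :
    sv p D P M ≤ 1 / 2 + Real.log 2 * ((∑ l ∈ Q \ M, sv p D (insert l P) M) / k - 1 / 2) := by
  refine (b1 h0 h1 hc M).trans ((tang _).trans ?_)
  have h2 : 0 ≤ ∑ l ∈ Q \ M, sv p D (insert l P) M := sum_nonneg fun _ _ => sv_nonneg h0 h1.le
  have h3 : (0 : ℝ) < k := Nat.cast_pos.2 hk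
  have h4 := mul_le_mul_of_nonneg_right hi (div_nonneg h2 h3.le)
  rw [mul_right_comm, mul_div_cancel₀ _ h3.ne'] at h4
  linarith

end Vale.Agent.P336C
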