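import Vale.Agent.P336C.Defs
import Vale.Agent.P337.Raw
import Vale.Agent.Lib.PCP.Base

/-! The language is decided in polynomial time. -/

namespace Vale.Agent.P336C

open Vale.Agent.Lib.TM

theorem langct_bb {α : Type} [Enc α] (d : ℕ) {n : α → ℕ} (hn : CT 0 n) : CT 0 fun a => bb d (n a) :=
  CT.pow (hn.add (CT.const 2)) (CT.const _) (Bd.const _)

theorem langct_rr {α : Type} [Enc α] (d : ℕ) {n : α → ℕ} (hn : CT 0 n) : CT 0 fun a => rr d (n a) :=
  CT.natSize (hn.mul (CT.pow ((langct_bb d hn).add hn) (CT.const d) (Bd.const d)))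

/-- The language is computed by the closure lemmas of `CT`. -/
theorem lang_ct (d : ℕ) : CT 0 fun w : List Bool => [lang d w] := by
  have hw : CT 0 fun p : List Bool × ℕ => p.1 := CT.fst CT.id
  have hi : CT 0 fun p : List Bool × ℕ => p.2 := CT.snd CT.id
  have hn : CT 0 fun p : List Bool × ℕ => p.1.length := hw.length
  have hg : CT 0 fun p : List Bool × ℕ => p.1.getD p.2 false := hw.getD hi (CT.const false)
  have h1 : CT 0 fun p : List Bool × ℕ =>
      bif p.1.getD p.2 false && Nat.blt p.2 (rr d p.1.length) then 2 ^ min p.2 p.1.length else 0 :=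
    CT.cond (hg.and (hi.blt (langct_rr d hn)))
      (CT.pow (CT.const 2) (hi.min hn) (hw.bd_length.of_le fun p => min_le_right _ _)) (CT.const 0)
  have h2 : CT 0 fun p : List Bool × ℕ =>
      bif p.1.getD p.2 false && Nat.ble (rr d p.1.length) p.2 then (bb d p.1.length + p.2) ^ d
      else 0 :=
    CT.cond (hg.and ((langct_rr d hn).ble hi))
      (CT.pow ((langct_bb d hn).add hi) (CT.const d) (Bd.const d)) (CT.const 0)
  have hr : CT 0 fun w : List Bool => List.range w.length := CT.range_length CT.id
  have h3 := CT.cons (CT.beqNat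
    (CT.sum (CT.map (f := fun (w : List Bool) (i : ℕ) =>
      bif w.getD i false && Nat.blt i (rr d w.length) then 2 ^ min i w.length else 0) h1 hr))
    (CT.sum (CT.map (f := fun (w : List Bool) (i : ℕ) =>
      bif w.getD i false && Nat.ble (rr d w.length) i then (bb d w.length + i) ^ d else 0) h2 hr)))
    (CT.const ([] : List Bool))
  refine h3.of_eq fun w => ?_
  unfold lang
  rw [List.map_congr_left fun i hi => by rw [min_eq_left (List.mem_range.1 hi).le]]

theorem lang_poly (d : ℕ) :
    ∃ M : Turing.TM2ComputableInPolyTime id id (fun w : List Bool => [lang d w]),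
      ∀ k, Finite (M.tm.Γ k) :=
  Vale.Agent.P337.polyTime_of_CT (lang_ct d)

end Vale.Agent.P336C
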