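import Vale.Agent.P336C.Kraft

/-! From a circuit to a covered set of points. -/

namespace Vale.Agent.P336C

open Finset Vale.Agent.P151

variable {n : ℕ}

/-- The variables read by a bottom gate. -/
def vars (g : Finset (Inp n)) : Finset (Fin n) := univ.filter fun i => ∃ b, Sum.inl (i, b) ∈ g

theorem reduce_flp (x : Fin n → Bool) (P : Finset (Fin n)) : flp (flp x P) P = x := by
  funext i
  by_cases h : i ∈ P <;> simp [flp, h]

/-- Sets of size at most `d`: at most `(n + 1) ^ d` (images of maps `Fin d → Option (Fin n)`, or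
induction on `d`). -/
theorem card_small (n d : ℕ) :
    ((univ : Finset (Finset (Fin n))).filter fun P => P.card ≤ d).card ≤ (n + 1) ^ d := by
  induction d with
  | zero =>
    rw [pow_zero, Finset.card_le_one]
    intro a ha b hb
    rw [mem_filter, Nat.le_zero, card_eq_zero] at ha hb
    rw [ha.2, hb.2]
  | succ d ih =>
    obtain ⟨S, hS⟩ : ∃ S, S = (univ : Finset (Finset (Fin n))).filter fun P => P.card ≤ d :=
      ⟨_, rfl⟩
    have h : ((univ : Finset (Finset (Fin n))).filter fun P => P.card ≤ d + 1) ⊆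
        S ∪ ((univ : Finset (Fin n)) ×ˢ S).image fun z => insert z.1 z.2 := by
      intro P hP
      rw [mem_filter] at hP
      rw [mem_union]
      rcases P.eq_empty_or_nonempty with rfl | ⟨a, ha⟩
      · left
        simp [hS]
      · right
        refine mem_image.2 ⟨(a, P.erase a), mem_product.2 ⟨mem_univ _, ?_⟩, insert_erase ha⟩
        rw [hS, mem_filter, card_erase_of_mem ha]
        exact ⟨mem_univ _, by omega⟩
    have h1 := (card_le_card h).trans ((card_union_le _ _).trans
      (Nat.add_le_add_left card_image_le _))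
    rw [card_product, card_univ, Fintype.card_fin] at h1
    rw [← hS] at ih
    refine h1.trans ?_
    rw [pow_succ]
    nlinarith

open Classical in
/-- Two points that falsify `g` agree on `vars g`. -/
theorem card_viol (g : Finset (Inp n)) :
    ((univ : Finset (Fin n → Bool)).filter fun x => ∀ l ∈ g, ¬ Holds x l).card *
      2 ^ (vars g).card ≤ 2 ^ n := by
  rw [← card_powerset, ← card_product]
  have e : 2 ^ n = (univ : Finset (Fin n → Bool)).card := by simp
  rw [e]
  refine card_le_card_of_injOn (fun z => flp z.1 z.2) (fun _ _ => mem_univ _) ?_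
  rintro ⟨x, S⟩ h1 ⟨y, T⟩ h2 h
  rw [mem_coe, mem_product, mem_filter, mem_powerset] at h1 h2
  have h3 : ∀ i ∈ vars g, x i = y i := fun i hi => by
    obtain ⟨b, hb⟩ := (mem_filter.1 hi).2
    have a1 : ¬ x i = b := h1.1.2 _ hb
    have a2 : ¬ y i = b := h2.1.2 _ hb
    revert a1 a2
    cases x i <;> cases y i <;> cases b <;> simp
  have h4 : S = T := by
    ext i
    have a1 : (if i ∈ S then !x i else x i) = if i ∈ T then !y i else y i := congrFun h i
    constructor
    · intro hi
      by_contra hj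
      rw [if_pos hi, if_neg hj, h3 i (h1.2 hi)] at a1
      simp at a1
    · intro hi
      by_contra hj
      rw [if_pos hi, if_neg hj, h3 i (h2.2 hi)] at a1
      simp at a1
  subst h4
  have h5 : x = y := by
    have a1 : flp x S = flp y S := h
    rw [← reduce_flp x S, a1, reduce_flp]
  rw [h5]

open Classical in
/-- `flp · P` is an involution; union bound over `P`. -/
theorem card_near (g : Finset (Inp n)) {k : ℕ} (hk : k ≤ (vars g).card) (d : ℕ) :
    ((univ : Finset (Fin n → Bool)).filter fun x =>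
      ∃ P : Finset (Fin n), P.card ≤ d ∧ ∀ l ∈ g, ¬ Holds (flp x P) l).card * 2 ^ k ≤
        (n + 1) ^ d * 2 ^ n := by
  obtain ⟨V, hV⟩ : ∃ V, V = (univ : Finset (Fin n → Bool)).filter fun x => ∀ l ∈ g, ¬ Holds x l :=
    ⟨_, rfl⟩
  have h1 : V.card * 2 ^ k ≤ 2 ^ n :=
    (Nat.mul_le_mul_left _ (Nat.pow_le_pow_right two_pos hk)).trans (hV ▸ card_viol g)
  have h2 : ((univ : Finset (Fin n → Bool)).filter fun x =>
      ∃ P : Finset (Fin n), P.card ≤ d ∧ ∀ l ∈ g, ¬ Holds (flp x P) l) ⊆
      (((univ : Finset (Finset (Fin n))).filter fun P => P.card ≤ d) ×ˢ V).image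
        fun z => flp z.2 z.1 := by
    intro x hx
    obtain ⟨P, a1, a2⟩ := (mem_filter.1 hx).2
    refine mem_image.2 ⟨(P, flp x P), mem_product.2 ⟨mem_filter.2 ⟨mem_univ _, a1⟩, ?_⟩,
      reduce_flp x P⟩
    rw [hV]
    exact mem_filter.2 ⟨mem_univ _, a2⟩
  have h3 := (card_le_card h2).trans card_image_le
  rw [card_product] at h3
  refine (Nat.mul_le_mul_right _ h3).trans ?_
  rw [mul_assoc]
  exact Nat.mul_le_mul (card_small n d) h1

/-- Remove from `Cd` the points that are near a falsifying point of a gate with at least `k`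
variables (`card_near`). Every other point is accepted by a middle gate; take the gate `j` that
accepts most of them, `A` = those points. For `x ∈ A` and small `P`: either no difference set
contains `P` (cover `∅`), or a gate `g ∈ mid j` is false at `flp x P`; it is narrow and
`vars (bot g) \ P` is a cover. If there is no middle gate all points were removed; take `A = ∅`. -/
theorem reduce (C : Circuit n) (F : (Fin n → Bool) → Prop) (hC : ∀ x, C.Accepts x ↔ F x)
    (Cd : Finset (Fin n → Bool)) (h1 : ∀ x ∈ Cd, F x) (k d : ℕ)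
    (h2 : ∀ x ∈ Cd, ∀ P : Finset (Fin n), P.Nonempty → P.card ≤ d →
      ¬ F (flp x P) ∨ ∀ y ∈ Cd, ¬ P ⊆ df x y) :
    ∃ A : Finset (Fin n → Bool), Cvd A k d ∧
      (Cd.card : ℝ) ≤ C.nm * A.card + C.nb * (((n : ℝ) + 1) ^ d * 2 ^ n / 2 ^ k) := by
  classical
  obtain ⟨N, hN⟩ : ∃ N : Fin C.nb → Finset (Fin n → Bool), ∀ g x, x ∈ N g ↔
      k ≤ (vars (C.bot g)).card ∧
        ∃ P : Finset (Fin n), P.card ≤ d ∧ ∀ l ∈ C.bot g, ¬ Holds (flp x P) l :=
    ⟨fun g => univ.filter _, fun g x => mem_filter.trans (and_iff_right (mem_univ _))⟩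
  have hNc : ∀ g, ((N g).card : ℝ) ≤ ((n : ℝ) + 1) ^ d * 2 ^ n / 2 ^ k := fun g => by
    by_cases hk : k ≤ (vars (C.bot g)).card
    · have a1 := (Nat.mul_le_mul_right (2 ^ k) (card_le_card (s := N g) fun x hx =>
        mem_filter.2 ⟨mem_univ x, ((hN g x).1 hx).2⟩)).trans (card_near (C.bot g) hk d)
      rw [le_div_iff₀ (by positivity)]
      exact_mod_cast a1
    · rw [eq_empty_of_forall_notMem fun x hx => hk ((hN g x).1 hx).1, card_empty, Nat.cast_zero]
      positivity
  obtain ⟨B, hB⟩ : ∃ B : Fin C.nm → Finset (Fin n → Bool), ∀ j x, x ∈ B j ↔ x ∈ Cd ∧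
      (∀ g, x ∉ N g) ∧ j ∈ C.top ∧ ∀ g ∈ C.mid j, ∃ l ∈ C.bot g, Holds x l :=
    ⟨fun j => Cd.filter _, fun j x => mem_filter⟩
  have hcv : ∀ j, Cvd (B j) k d := fun j x hx P hP hd => by
    obtain ⟨a1, a2, a3, -⟩ := (hB j x).1 hx
    rcases h2 x a1 P hP hd with h | h
    · have a4 : ∃ g ∈ C.mid j, ∀ l ∈ C.bot g, ¬ Holds (flp x P) l := by
        by_contra hc
        push Not at hc
        exact h ((hC _).1 ⟨j, a3, hc⟩)
      obtain ⟨g, a5, a6⟩ := a4
      have a7 : (vars (C.bot g)).card ≤ k :=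
        le_of_not_ge fun hk => a2 g ((hN g x).2 ⟨hk, P, hd, a6⟩)
      refine ⟨vars (C.bot g) \ P, (card_le_card sdiff_subset).trans a7, disjoint_sdiff,
        fun T hT hPT => ?_⟩
      obtain ⟨y, hy, rfl⟩ := mem_image.1 hT
      obtain ⟨l, b1, b2⟩ := ((hB j y).1 hy).2.2.2 g a5
      have b3 := a6 l b1
      rcases l with ⟨i, b⟩ | b
      · have b4 : y i = b := b2
        have b5 : ¬ (if i ∈ P then !x i else x i) = b := b3
        by_cases hi : i ∈ P
        · have b6 := mem_df.1 (hPT hi)
          rw [if_pos hi, ← b4] at b5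
          revert b5 b6
          cases x i <;> cases y i <;> simp
        · rw [if_neg hi, ← b4] at b5
          exact ⟨i, mem_sdiff.2 ⟨mem_filter.2 ⟨mem_univ _, b, b1⟩, hi⟩, mem_df.2 b5⟩
      · exact absurd b2 b3
    · refine ⟨∅, by simp, disjoint_empty_right _, fun T hT hPT => ?_⟩
      obtain ⟨y, hy, rfl⟩ := mem_image.1 hT
      exact absurd hPT (h y ((hB j y).1 hy).1)
  obtain ⟨A, hA, hmax⟩ := exists_max_image (insert ∅ (univ.image B)) card (insert_nonempty _ _)
  refine ⟨A, ?_, ?_⟩
  · rcases mem_insert.1 hA with rfl | h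
    · intro x hx
      simp at hx
    · obtain ⟨j, -, rfl⟩ := mem_image.1 h
      exact hcv j
  have h3 : Cd ⊆ univ.biUnion B ∪ univ.biUnion N := fun x hx => by
    by_cases h : ∀ g, x ∉ N g
    · obtain ⟨j, a1, a2⟩ := (hC x).2 (h1 x hx)
      exact mem_union_left _ (mem_biUnion.2 ⟨j, mem_univ _, (hB j x).2 ⟨hx, h, a1, a2⟩⟩)
    · push Not at h
      obtain ⟨g, hg⟩ := h
      exact mem_union_right _ (mem_biUnion.2 ⟨g, mem_univ _, hg⟩)
  have h4 := (card_le_card h3).trans ((card_union_le _ _).trans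
    (Nat.add_le_add card_biUnion_le card_biUnion_le))
  have h5 : ∑ j, (B j).card ≤ C.nm * A.card := by
    refine (sum_le_card_nsmul _ _ A.card fun j _ =>
      hmax _ (mem_insert_of_mem (mem_image_of_mem _ (mem_univ j)))).trans ?_
    simp
  have h6 : ∑ g, ((N g).card : ℝ) ≤ C.nb * (((n : ℝ) + 1) ^ d * 2 ^ n / 2 ^ k) := by
    refine (sum_le_card_nsmul _ _ _ fun g _ => hNc g).trans ?_
    simp
  have h7 : (Cd.card : ℝ) ≤ ((C.nm * A.card + ∑ g, (N g).card : ℕ) : ℝ) := by
    exact_mod_cast h4.trans (Nat.add_le_add_right h5 _)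
  push_cast at h7
  linarith

end Vale.Agent.P336C
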