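import Vale.Agent.P336C.Coding
import Vale.Agent.P336C.Reduce
import Vale.Agent.P336C.LangCT
import Vale.Agent.P336C.Code
import Vale.Agent.P336C.Asym

/-! The lower bound. -/

namespace Vale.Agent.P336C

theorem main : ∃ (L : List Bool → Bool)
    (M : Turing.TM2ComputableInPolyTime id id (fun w : List Bool => [L w])),
    (∀ k, Finite (M.tm.Γ k)) ∧ ∃ c : ℝ, Real.pi / Real.sqrt 6 < c ∧ ∃ N : ℕ, ∀ n : ℕ, N ≤ n →
      ∀ C : Circuit n, (∀ x : Fin n → Bool, C.Accepts x ↔ L (List.ofFn x) = true) →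
        (2 : ℝ) ^ (c * Real.sqrt n) ≤ C.size := by
  obtain ⟨d, k0, cs, hk0, hcs, h1⟩ := coding
  obtain ⟨M, hM⟩ := lang_poly d
  obtain ⟨b, N1, h2⟩ := code d
  obtain ⟨c, hc, N2, h3⟩ := asym hcs b d k0
  refine ⟨lang d, M, hM, c, hc, max (max N1 N2) 1, fun n hn C hC => ?_⟩
  obtain ⟨Cd, k1, k2, k3⟩ := h2 n (by omega)
  obtain ⟨k, hk, h4⟩ := h3 n (by omega)
  obtain ⟨A, hA, h5⟩ := reduce C (fun x => lang d (List.ofFn x) = true) hC Cd k1 k d k2
  have h6 := h1 (Fin n) (by simp; omega) k hk A hA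
  rw [Fintype.card_fin] at h6
  by_contra h7
  have h8 := h4 C.size (Nat.cast_nonneg _) (not_le.1 h7)
  have h9 : (C.nm : ℝ) ≤ C.size := by exact_mod_cast (by unfold Circuit.size; omega)
  have h10 : (C.nb : ℝ) ≤ C.size := by exact_mod_cast (by unfold Circuit.size; omega)
  have h11 : (2 : ℝ) ^ n ≤ Cd.card * ((n : ℝ) + 2) ^ b := by exact_mod_cast k3
  have h12 : (C.nm : ℝ) * A.card ≤ C.size * (2 * (2 : ℝ) ^ ((n : ℝ) - cs * n / k)) :=
    mul_le_mul h9 h6 (Nat.cast_nonneg _) (Nat.cast_nonneg _)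
  have h13 : (C.nb : ℝ) * (((n : ℝ) + 1) ^ d * 2 ^ n / 2 ^ k) ≤
      C.size * (((n : ℝ) + 1) ^ d * 2 ^ n / 2 ^ k) :=
    mul_le_mul_of_nonneg_right h10 (by positivity)
  have h14 := mul_le_mul_of_nonneg_right (h5.trans (add_le_add h12 h13))
    (show (0 : ℝ) ≤ ((n : ℝ) + 2) ^ b by positivity)
  linarith

end Vale.Agent.P336C
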