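import Vale.Agent.P336C.Defs

/-! Basic facts on the expectation `E` and on survival probabilities. -/

namespace Vale.Agent.P336C

open Finset Vale.Agent.P151

variable {ι : Type} [Fintype ι] [DecidableEq ι] {p : ℝ} {f g : Finset ι → ℝ}

omit [Fintype ι] [DecidableEq ι] in
theorem wt (h0 : 0 ≤ p) (h1 : p ≤ 1) : Wt (fun _ : ι => p) := fun _ => ⟨h0, h1⟩

theorem E_mono (h0 : 0 ≤ p) (h1 : p ≤ 1) (h : ∀ S, f S ≤ g S) : E p f ≤ E p g :=
  Ex_mono (wt h0 h1) fun S _ => h S

theorem E_nonneg (h0 : 0 ≤ p) (h1 : p ≤ 1) (h : ∀ S, 0 ≤ f S) : 0 ≤ E p f :=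
  Ex_nonneg (wt h0 h1) fun S _ => h S

theorem E_add : E p (fun S => f S + g S) = E p f + E p g := Ex_add

theorem E_sub : E p (fun S => f S - g S) = E p f - E p g := Ex_sub

theorem E_mul_left (c : ℝ) : E p (fun S => c * f S) = c * E p f := Ex_mul_left c

theorem E_mul_right (c : ℝ) : E p (fun S => f S * c) = E p f * c := Ex_mul_right c

theorem E_const (c : ℝ) : E p (fun _ : Finset ι => c) = c := Ex_const _ _ c

theorem E_sum {κ : Type*} (I : Finset κ) (f : κ → Finset ι → ℝ) :
    E p (fun S => ∑ i ∈ I, f i S) = ∑ i ∈ I, E p (f i) := Ex_sum I f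

theorem E_ind_not (P : Finset ι → Prop) :
    E p (fun S => ind (¬ P S)) = 1 - E p (fun S => ind (P S)) := Ex_ind_not P

/-- Harris, increasing functions. -/
theorem E_fkg (h0 : 0 ≤ p) (h1 : p ≤ 1) (hf : Monotone f) (hg : Monotone g) :
    E p f * E p g ≤ E p (fun S => f S * g S) := Ex_fkg (wt h0 h1) hf hg

theorem prob_split (g : Finset ι → ℝ) (i : ι) :
    E p g = p * Ex (fun _ => p) (univ.erase i) (fun S => g (insert i S)) +
      (1 - p) * Ex (fun _ => p) (univ.erase i) g := by
  rw [E, ← Finset.insert_erase (mem_univ i), Ex_insert (Finset.notMem_erase i _),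
    Finset.insert_erase (mem_univ i)]

theorem prob_ins (g : Finset ι → ℝ) (i : ι) : E p (fun S => g (insert i S)) =
    Ex (fun _ => p) (univ.erase i) (fun S => g (insert i S)) := by
  rw [prob_split _ i]
  simp only [Finset.insert_idem]
  ring

theorem prob_era (g : Finset ι → ℝ) (i : ι) :
    E p (fun S => g (S.erase i)) = Ex (fun _ => p) (univ.erase i) g := by
  simpa only [E, Finset.filter_ne'] using Ex_filter (fun x => x ≠ i) (fun _ => p) univ g

theorem prob_sdiff (g : Finset ι → ℝ) (M : Finset ι) :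
    E p (fun S => g (S \ M)) = Ex (fun _ => p) (univ \ M) g := by
  simpa only [E, ← Finset.sdiff_eq_filter] using Ex_filter (fun x => x ∉ M) (fun _ => p) univ g

/-- Harris, decreasing functions. -/
theorem E_fkg_anti (h0 : 0 ≤ p) (h1 : p ≤ 1) (hf : Antitone f) (hg : Antitone g) :
    E p f * E p g ≤ E p (fun S => f S * g S) := by
  have h := Ex_fkg (F := univ) (wt h0 h1) hf.neg hg.neg
  simpa only [E, Pi.neg_def, Ex_neg, neg_mul_neg] using h

theorem E_zero (g : Finset ι → ℝ) : E 0 g = g ∅ := by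
  rw [E, Ex_det ∅ fun e _ => by simp, Finset.empty_inter]

theorem E_mem (g : Finset ι → ℝ) (i : ι) :
    E p (fun S => ind (i ∈ S) * g S) = p * E p (fun S => g (insert i S)) := by
  have h : Ex (fun _ => p) (univ.erase i) (fun S => ind (i ∈ S) * g S) = 0 := by
    rw [← Ex_const (fun _ => p) (univ.erase i) 0]
    exact Ex_congr fun S hS => by
      rw [ind_neg fun h => Finset.notMem_erase i _ (hS h), zero_mul]
  rw [prob_ins, prob_split _ i, h]
  simp only [ind_pos (Finset.mem_insert_self i _), one_mul, mul_zero, add_zero]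

theorem E_notMem (g : Finset ι → ℝ) (i : ι) :
    E p (fun S => ind (i ∉ S) * g S) = (1 - p) * E p (fun S => g (S.erase i)) := by
  have h : Ex (fun _ => p) (univ.erase i) (fun S => ind (i ∉ S) * g S) =
      Ex (fun _ => p) (univ.erase i) g := Ex_congr fun S hS => by
    rw [ind_pos fun h => Finset.notMem_erase i _ (hS h), one_mul]
  rw [prob_era, prob_split _ i, h]
  simp only [ind_neg (not_not.2 (Finset.mem_insert_self i _)), zero_mul, Ex_const, mul_zero,
    zero_add]

theorem E_swap (h0 : 0 ≤ p) (h1 : p < 1) (hg : ∀ S, 0 ≤ g S) (a : ι) :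
    E p (fun S => ind (a ∈ S) * g (S.erase a)) ≤ th p * E p g := by
  have h2 : (1 - p) * E p (fun S => g (S.erase a)) ≤ E p g := by
    rw [← E_notMem]
    exact E_mono h0 h1.le fun S => mul_le_of_le_one_left (hg S) (ind_le_one _)
  rw [E_mem (fun S => g (S.erase a)), th, div_mul_eq_mul_div, le_div_iff₀ (sub_pos.2 h1),
    mul_assoc, mul_comm _ (1 - p)]
  simp only [Finset.erase_insert_eq_erase]
  exact mul_le_mul_of_nonneg_left h2 h0

/-- The trace on `N` is `T`, and the rest is independent of it. -/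
theorem E_pin {N T : Finset ι} (hT : T ⊆ N) (g : Finset ι → ℝ) :
    E p (fun S => ind (S ∩ N = T) * g (S \ N)) =
      p ^ T.card * (1 - p) ^ (N \ T).card * E p (fun S => g (S \ N)) := by
  have h := Ex_indep (fun x => x ∈ N) (fun _ => p) univ (fun U => ind (U = T)) g
  simp only [Finset.filter_mem_eq_inter, ← Finset.sdiff_eq_filter] at h
  have h2 : Ex (fun _ => p) N (fun U => ind (U = T)) = p ^ T.card * (1 - p) ^ (N \ T).card := by
    rw [Ex, Finset.sum_eq_single_of_mem T (Finset.mem_powerset.2 hT) fun U _ hU => by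
      rw [ind_neg hU, mul_zero], ind_pos rfl, mul_one, Finset.prod_const, Finset.prod_const]
  rw [Ex_inter (Finset.subset_univ N) _ fun U => ind (U = T), h2] at h
  exact h

theorem E_tower (M : Finset ι) (g : Finset ι → ℝ) :
    E p g = E p (fun T => E p (fun S => g (S \ M ∪ T ∩ M))) := by
  have h : ∀ U, E p (fun S => g (S \ M ∪ U)) = Ex (fun _ => p) (univ \ M) fun S => g (U ∪ S) :=
    fun U => by
      rw [← prob_sdiff]
      simp only [Finset.union_comm]
  simp only [h]
  have h2 := Ex_inter (Finset.subset_univ M) (fun _ => p)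
    fun U => Ex (fun _ => p) (univ \ M) fun S => g (U ∪ S)
  rw [← Ex_union Finset.disjoint_sdiff, Finset.union_sdiff_of_subset (Finset.subset_univ M)] at h2
  exact h2.symm

theorem E_card (N : Finset ι) : E p (fun S => ((S ∩ N).card : ℝ)) = p * N.card := by
  have h : ∀ S : Finset ι, ((S ∩ N).card : ℝ) = ∑ i ∈ N, ind (i ∈ S) * 1 := fun S => by
    rw [Finset.inter_comm, ← Finset.filter_mem_eq_inter, Finset.card_filter]
    push_cast
    exact Finset.sum_congr rfl fun i _ => by by_cases h : i ∈ S <;> simp [ind, h]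
  simp only [h]
  rw [E_sum, Finset.sum_congr rfl fun i _ => E_mem (fun _ => (1 : ℝ)) i, E_const, mul_one,
    Finset.sum_const, nsmul_eq_mul, mul_comm]

theorem E_jensen (h0 : 0 ≤ p) (h1 : p ≤ 1) (g : Finset ι → ℝ) :
    Real.exp (E p g) ≤ E p (fun S => Real.exp (g S)) := by
  have h := E_mono h0 h1 (f := fun S => Real.exp (E p g) * (g S - E p g + 1))
    (g := fun S => Real.exp (g S)) fun S => by
      have h2 := mul_le_mul_of_nonneg_left (Real.add_one_le_exp (g S - E p g))
        (Real.exp_pos (E p g)).le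
      rwa [← Real.exp_add, add_sub_cancel] at h2
  rwa [E_mul_left, E_add, E_sub, E_const, E_const, sub_self, zero_add, mul_one] at h

omit [Fintype ι] in
theorem prob_russo (F : Finset ι) (f : Finset ι → ℝ) (t : ℝ) :
    HasDerivAt (fun p => Ex (fun _ => p) F f)
      (∑ e ∈ F, Ex (fun _ => t) (F.erase e) (fun ω => f (insert e ω) - f ω)) t := by
  induction F using Finset.induction_on generalizing f with
  | empty => simpa using hasDerivAt_const t (f ∅)
  | insert e F he ih =>
    simp only [Ex_insert he]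
    have h1 := ((hasDerivAt_id' t).mul (ih (fun ω => f (insert e ω)))).add
      (((hasDerivAt_id' t).const_sub 1).mul (ih f))
    refine h1.congr_deriv ?_
    rw [Finset.sum_insert he, Finset.erase_insert he, Ex_sub, Finset.mul_sum, Finset.mul_sum]
    have h2 : ∑ e' ∈ F, Ex (fun _ => t) ((insert e F).erase e') (fun ω => f (insert e' ω) - f ω) =
        ∑ e' ∈ F, (t * Ex (fun _ => t) (F.erase e')
          (fun ω => f (insert e (insert e' ω)) - f (insert e ω)) +
          (1 - t) * Ex (fun _ => t) (F.erase e') (fun ω => f (insert e' ω) - f ω)) := by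
      refine Finset.sum_congr rfl fun e' he' => ?_
      have h3 : e ≠ e' := fun h => he (h ▸ he')
      rw [Finset.erase_insert_of_ne h3, Ex_insert (fun h => he (Finset.mem_of_mem_erase h))]
      simp only [Finset.insert_comm e' e]
    rw [h2, Finset.sum_add_distrib]
    ring

/-- The Russo formula. -/
theorem russo (g : Finset ι → ℝ) : ∃ e : ℝ → ℝ, (∀ p, HasDerivAt (fun q => E q g) (e p) p) ∧
    ∀ p, p * e p = E p (fun S => ∑ i ∈ S, (g S - g (S.erase i))) := by
  refine ⟨_, prob_russo univ g, fun p => ?_⟩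
  have h : ∀ S : Finset ι, ∑ i ∈ S, (g S - g (S.erase i)) =
      ∑ i, ind (i ∈ S) * (g S - g (S.erase i)) := fun S => by
    rw [← Finset.sum_subset (Finset.subset_univ S) fun i _ hi => by rw [ind_neg hi, zero_mul]]
    exact Finset.sum_congr rfl fun i hi => by rw [ind_pos hi, one_mul]
  simp only [h]
  rw [E_sum, Finset.mul_sum]
  refine Finset.sum_congr rfl fun i _ => ?_
  rw [E_mem (fun S => g S - g (S.erase i)), prob_ins (fun S => g S - g (S.erase i))]
  congr 1
  exact Ex_congr fun S hS => by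
    rw [Finset.erase_insert fun h => Finset.notMem_erase i _ (hS h)]

theorem th_nonneg (h0 : 0 ≤ p) (h1 : p < 1) : 0 ≤ th p := div_nonneg h0 (sub_nonneg.2 h1.le)

theorem le_th (h0 : 0 ≤ p) (h1 : p < 1) : p ≤ th p := by
  rw [th, le_div_iff₀ (sub_pos.2 h1)]
  nlinarith

theorem exp_th_le (h0 : 0 ≤ p) (h1 : p < 1) (m : ℕ) :
    Real.exp (-(th p * m)) ≤ (1 - p) ^ m := by
  have _ := h0
  have h2 := sub_pos.2 h1
  rw [← neg_mul, mul_comm, Real.exp_nat_mul]
  refine pow_le_pow_left₀ (Real.exp_pos _).le ?_ m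
  rw [Real.exp_neg, inv_le_comm₀ (Real.exp_pos _) h2]
  refine le_trans (le_of_eq ?_) (Real.add_one_le_exp _)
  rw [th]
  field_simp
  ring

variable {D : Finset (Finset ι)} {P M M' S S' : Finset ι}

omit [Fintype ι] in
theorem Alive.mono (h : Alive D P S) (hS : S ⊆ S') : Alive D P S' :=
  let ⟨T, h1, h2, h3⟩ := h
  ⟨T, h1, h2, h3.trans (Finset.union_subset_union hS subset_rfl)⟩

theorem sv_nonneg (h0 : 0 ≤ p) (h1 : p ≤ 1) : 0 ≤ sv p D P M :=
  E_nonneg h0 h1 fun _ => ind_nonneg _

theorem sv_le_one (h0 : 0 ≤ p) (h1 : p ≤ 1) : sv p D P M ≤ 1 :=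
  (E_mono h0 h1 fun _ => ind_le_one _).trans (E_const 1).le

theorem sv_anti (h0 : 0 ≤ p) (h1 : p ≤ 1) (h : M ⊆ M') : sv p D P M' ≤ sv p D P M :=
  E_mono h0 h1 fun _ => ind_mono fun h2 => h2.mono (Finset.sdiff_subset_sdiff subset_rfl h)

theorem sv_empty : sv p D P ∅ = E p fun S => ind (Alive D P S) := by
  simp only [sv, Finset.sdiff_empty]

/-- The two events differ only if `S` meets `B`. -/
theorem sv_le_add (h0 : 0 ≤ p) (h1 : p ≤ 1) (B : Finset ι) :
    sv p D P (M \ B) ≤ sv p D P M + p * B.card := by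
  rw [← E_card, sv, sv, ← E_add]
  refine E_mono h0 h1 fun S => ?_
  rcases (S ∩ B).eq_empty_or_nonempty with h | h
  · rw [h, Finset.card_empty, Nat.cast_zero, add_zero]
    refine ind_mono fun h2 => h2.mono fun x hx => ?_
    have h3 : x ∉ S ∩ B := h ▸ Finset.notMem_empty x
    simp only [Finset.mem_sdiff, Finset.mem_inter] at hx h3 ⊢
    tauto
  · have h2 : (1 : ℝ) ≤ (S ∩ B).card := by exact_mod_cast h.card_pos
    linarith [ind_le_one (Alive D P (S \ (M \ B))), ind_nonneg (Alive D P (S \ M))]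

end Vale.Agent.P336C
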