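import Vale.Agent.P336C.Card

/-! The survival probabilities attached to the triples. -/

namespace Vale.Agent.P336C

open Finset Vale.Agent.P151

variable {ι : Type} [Fintype ι] [DecidableEq ι] {D : Finset (Finset ι)} {k K L : ℕ} {p δ : ℝ}
  {Q : ι → Finset ι} {Q2 : ι → ι → Finset ι}

theorem qsum_ite (s : Finset ι) (t : ι → Finset ι) (g : ι → ι → ℝ) :
    ∑ x ∈ s, ∑ y ∈ t x, g x y = ∑ x, ∑ y, if x ∈ s ∧ y ∈ t x then g x y else 0 := by
  have e : ∀ (s : Finset ι) (g : ι → ℝ), ∑ x ∈ s, g x = ∑ x, if x ∈ s then g x else 0 :=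
    fun s g => by rw [Finset.sum_ite_mem, Finset.univ_inter]
  rw [e]
  refine Finset.sum_congr rfl fun x _ => ?_
  by_cases hx : x ∈ s
  · simp only [hx, if_true, true_and]
    exact e _ _
  · simp [hx]

theorem qsum_gen (H : Finset ι) (F : ι → ι → ι → ℝ) (hF : ∀ a b l, 0 ≤ F a b l) :
    ∑ t ∈ trip Q H, F t.1 t.2.1 t.2.2 ≤
      ∑ a, ∑ b ∈ Q a \ H, ∑ l ∈ Q b \ Q a, F a b l +
        ∑ a, ∑ l ∈ Q a \ H, ∑ b ∈ Q a ∩ Q l, F a b l := by
  have h1 : ∑ t ∈ trip Q H, F t.1 t.2.1 t.2.2 =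
      ∑ a, ∑ b, ∑ l, if (a, b, l) ∈ trip Q H then F a b l else 0 := by
    have e : ∑ t ∈ trip Q H, F t.1 t.2.1 t.2.2 =
        ∑ t : ι × ι × ι, if t ∈ trip Q H then F t.1 t.2.1 t.2.2 else 0 := by
      rw [Finset.sum_ite_mem, Finset.univ_inter]
    rw [e, Fintype.sum_prod_type]
    exact Finset.sum_congr rfl fun a _ => Fintype.sum_prod_type _
  rw [h1, ← Finset.sum_add_distrib]
  refine Finset.sum_le_sum fun a _ => ?_
  rw [qsum_ite (Q a \ H) (fun b => Q b \ Q a) (fun b l => F a b l),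
    qsum_ite (Q a \ H) (fun l => Q a ∩ Q l) (fun l b => F a b l),
    Finset.sum_comm (f := fun l b => if l ∈ Q a \ H ∧ b ∈ Q a ∩ Q l then F a b l else 0),
    ← Finset.sum_add_distrib]
  refine Finset.sum_le_sum fun b _ => ?_
  rw [← Finset.sum_add_distrib]
  refine Finset.sum_le_sum fun l _ => ?_
  have h0 := hF a b l
  have n1 : (0 : ℝ) ≤ if b ∈ Q a \ H ∧ l ∈ Q b \ Q a then F a b l else 0 := by
    split_ifs
    · exact h0
    · exact le_rfl
  have n2 : (0 : ℝ) ≤ if l ∈ Q a \ H ∧ b ∈ Q a ∩ Q l then F a b l else 0 := by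
    split_ifs
    · exact h0
    · exact le_rfl
  by_cases ht : (a, b, l) ∈ trip Q H
  · rw [if_pos ht]
    obtain ⟨g1, g2, g3, _, g5⟩ := mem_trip.1 ht
    by_cases hl : l ∈ Q a
    · have c : l ∈ Q a \ H ∧ b ∈ Q a ∩ Q l :=
        ⟨Finset.mem_sdiff.2 ⟨hl, (g5 hl).1⟩, Finset.mem_inter.2 ⟨g1, (g5 hl).2⟩⟩
      rw [if_pos c]
      linarith
    · have c : b ∈ Q a \ H ∧ l ∈ Q b \ Q a :=
        ⟨Finset.mem_sdiff.2 ⟨g1, g2⟩, Finset.mem_sdiff.2 ⟨g3, hl⟩⟩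
      rw [if_pos c]
      linarith
  · rw [if_neg ht]
    linarith

theorem qsum_nn (hs : Setup D k p δ) (a b : ι) (M : Finset ι) :
    0 ≤ 1 / 2 + δ - sv p D {a, b} M :=
  sub_nonneg.2 (hs.le_u (Finset.insert_nonempty _ _) (Finset.card_le_two.trans (by norm_num)) M)

theorem qsum_d (hs : Setup D k p δ) (a : ι) : 0 ≤ 1 / 2 + δ - sv p D {a} ∅ :=
  sub_nonneg.2 (hs.le_u (Finset.singleton_nonempty _) (by simp) _)

theorem qsum_root (hs : Setup D k p δ) (hc : Cov D k Q Q2) (a : ι) {B M : Finset ι}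
    (hB : B ⊆ Q a) (hM : M.card ≤ 3 * k) :
    ∑ b ∈ B, (1 / 2 + δ - sv p D {b, a} M) ≤
      k * (1 / 100 + 10 ^ 10 * (1 / 2 + δ - sv p D {a} ∅)) :=
  (Finset.sum_le_sum_of_subset_of_nonneg hB fun b _ _ => qsum_nn hs b a M).trans
    (tstar hs (Finset.singleton_nonempty a) (by simp) (hc.one a) hM)

theorem qsum_m0 (hs : Setup D k p δ) (hc : Cov D k Q Q2) (a : ι) :
    (insert a (Q a ∪ ∅)).card ≤ 3 * k := by
  have h1 := Finset.card_insert_le a (Q a ∪ ∅)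
  have h2 : (Q a).card ≤ k := (hc.one a).1
  have h3 := hs.kk
  rw [Finset.union_empty] at h1 ⊢
  omega

theorem qsum_mm {a l : ι} (hl : l ∉ Q a) : mm Q Q2 a l = insert a (Q a ∪ ∅) := by
  unfold mm
  rw [if_neg hl]

theorem qsum_card (hc : Cov D k Q Q2) (a : ι) (B : Finset ι) : ((Q a \ B).card : ℝ) ≤ k := by
  have h : (Q a \ B).card ≤ k := (Finset.card_le_card Finset.sdiff_subset).trans (hc.one a).1
  exact_mod_cast h

theorem qsum_in (c : ℝ) :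
    ∑ a, c * (1 / 100 + 10 ^ 10 * (1 / 2 + δ - sv p D {a} ∅)) =
      c * (Fintype.card ι / 100 + 10 ^ 10 * dfc p δ D) := by
  rw [← Finset.mul_sum, Finset.sum_add_distrib, ← Finset.mul_sum, Finset.sum_const,
    Finset.card_univ, nsmul_eq_mul]
  unfold dfc
  ring

theorem qsum_out (hs : Setup D k p δ) (hc : Cov D k Q Q2) :
    ∑ a, ∑ b ∈ Q a \ hub Q K k, (k : ℝ) * (1 / 100 + 10 ^ 10 * (1 / 2 + δ - sv p D {b} ∅)) ≤
      k ^ 2 * (Fintype.card ι / 100 + 10 ^ 10 * K * dfc p δ D) := by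
  have hk : (0 : ℝ) ≤ k := Nat.cast_nonneg k
  have h1 := sum_nonhub (Q := Q) (K := K) (k := k) (fun b => 1 / 2 + δ - sv p D {b} ∅)
    (qsum_d hs)
  have h2 : ∀ a, ∑ b ∈ Q a \ hub Q K k,
      (k : ℝ) * (1 / 100 + 10 ^ 10 * (1 / 2 + δ - sv p D {b} ∅)) ≤
      k ^ 2 / 100 + k * 10 ^ 10 * ∑ b ∈ Q a \ hub Q K k, (1 / 2 + δ - sv p D {b} ∅) := by
    intro a
    rw [← Finset.mul_sum, Finset.sum_add_distrib, ← Finset.mul_sum, Finset.sum_const,
      nsmul_eq_mul]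
    have h3 := mul_le_mul_of_nonneg_left (qsum_card hc a (hub Q K k)) hk
    linarith
  refine (Finset.sum_le_sum fun a _ => h2 a).trans ?_
  rw [Finset.sum_add_distrib, ← Finset.mul_sum, Finset.sum_const, Finset.card_univ, nsmul_eq_mul]
  have h4 := mul_le_mul_of_nonneg_left h1 (show (0 : ℝ) ≤ k * 10 ^ 10 by positivity)
  unfold dfc
  linarith

/-- All terms are nonnegative (`le_u`). Triples with `l ∉ Q a`: `mm = insert a (Q a ∪ ∅)`, at most
`k` choices of `l` for each edge `(a, b)`, `tstar` at the root `a`. Triples with `l ∈ Q a`: for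
each edge `(a, l)` sum over `b ∈ Q a`, `tstar` at the root `a` with `M = mm Q Q2 a l`. -/
theorem q1_sum (hs : Setup D k p δ) (hc : Cov D k Q Q2) (H : Finset ι) :
    ∑ t ∈ trip Q H, (1 / 2 + δ - sv p D {t.1, t.2.1} (mm Q Q2 t.1 t.2.2)) ≤
      2 * k ^ 2 * (Fintype.card ι / 100 + 10 ^ 10 * dfc p δ D) := by
  have hk : (0 : ℝ) ≤ k := Nat.cast_nonneg k
  have hk1 : 1 ≤ k := le_trans (by norm_num) hs.kk
  refine (qsum_gen H (fun a b l => 1 / 2 + δ - sv p D {a, b} (mm Q Q2 a l))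
    fun a b l => qsum_nn hs a b _).trans ?_
  have h1 : ∀ a, ∑ b ∈ Q a \ H, ∑ l ∈ Q b \ Q a, (1 / 2 + δ - sv p D {a, b} (mm Q Q2 a l)) ≤
      (k : ℝ) ^ 2 * (1 / 100 + 10 ^ 10 * (1 / 2 + δ - sv p D {a} ∅)) := by
    intro a
    have g : ∀ b, ∑ l ∈ Q b \ Q a, (1 / 2 + δ - sv p D {a, b} (mm Q Q2 a l)) ≤
        k * (1 / 2 + δ - sv p D {b, a} (insert a (Q a ∪ ∅))) := by
      intro b
      rw [Finset.sum_congr rfl fun l hl => by
        rw [qsum_mm (Finset.mem_sdiff.1 hl).2, Finset.pair_comm a b]]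
      rw [Finset.sum_const, nsmul_eq_mul]
      exact mul_le_mul_of_nonneg_right (qsum_card hc b _) (qsum_nn hs b a _)
    refine (Finset.sum_le_sum fun b _ => g b).trans ?_
    rw [← Finset.mul_sum, pow_two, mul_assoc]
    exact mul_le_mul_of_nonneg_left
      (qsum_root hs hc a Finset.sdiff_subset (qsum_m0 hs hc a)) hk
  have h2 : ∀ a, ∑ l ∈ Q a \ H, ∑ b ∈ Q a ∩ Q l, (1 / 2 + δ - sv p D {a, b} (mm Q Q2 a l)) ≤
      (k : ℝ) ^ 2 * (1 / 100 + 10 ^ 10 * (1 / 2 + δ - sv p D {a} ∅)) := by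
    intro a
    have g : ∀ l, ∑ b ∈ Q a ∩ Q l, (1 / 2 + δ - sv p D {a, b} (mm Q Q2 a l)) ≤
        k * (1 / 100 + 10 ^ 10 * (1 / 2 + δ - sv p D {a} ∅)) := by
      intro l
      rw [Finset.sum_congr rfl fun b _ => by rw [Finset.pair_comm a b]]
      exact qsum_root hs hc a Finset.inter_subset_left (mm_card hc hk1 a l)
    refine (Finset.sum_le_sum fun l _ => g l).trans ?_
    rw [Finset.sum_const, nsmul_eq_mul, pow_two, mul_assoc]
    have hd := qsum_d hs a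
    exact mul_le_mul_of_nonneg_right (qsum_card hc a H) (by positivity)
  have h3 := Finset.sum_le_sum (s := univ) fun a _ => h1 a
  have h4 := Finset.sum_le_sum (s := univ) fun a _ => h2 a
  rw [qsum_in] at h3 h4
  linarith

/-- Triples with `l ∉ Q a`: for each edge `(a, b)` with `b ∉ H` sum over `l ∈ Q b`, `tstar` at the
root `b` with `M = insert a (Q a ∪ ∅)`. Triples with `l ∈ Q a`: for each edge `(a, l)` with `l ∉ H`
sum over `b ∈ Q l`, `tstar` at the root `l` with `M = mm Q Q2 a l`. In both cases there are at most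
`n * k` edges and `sum_nonhub` bounds the deficiency part. -/
theorem q2_sum (hs : Setup D k p δ) (hc : Cov D k Q Q2) :
    ∑ t ∈ trip Q (hub Q K k), (1 / 2 + δ - sv p D {t.2.1, t.2.2} (mm Q Q2 t.1 t.2.2)) ≤
      2 * k ^ 2 * (Fintype.card ι / 100 + 10 ^ 10 * K * dfc p δ D) := by
  have hk1 : 1 ≤ k := le_trans (by norm_num) hs.kk
  refine (qsum_gen (hub Q K k) (fun a b l => 1 / 2 + δ - sv p D {b, l} (mm Q Q2 a l))
    fun a b l => qsum_nn hs b l _).trans ?_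
  have h1 : ∀ a b, ∑ l ∈ Q b \ Q a, (1 / 2 + δ - sv p D {b, l} (mm Q Q2 a l)) ≤
      k * (1 / 100 + 10 ^ 10 * (1 / 2 + δ - sv p D {b} ∅)) := by
    intro a b
    rw [Finset.sum_congr rfl fun l hl => by
      rw [qsum_mm (Finset.mem_sdiff.1 hl).2, Finset.pair_comm b l]]
    exact qsum_root hs hc b Finset.sdiff_subset (qsum_m0 hs hc a)
  have h2 : ∀ a l, ∑ b ∈ Q a ∩ Q l, (1 / 2 + δ - sv p D {b, l} (mm Q Q2 a l)) ≤
      k * (1 / 100 + 10 ^ 10 * (1 / 2 + δ - sv p D {l} ∅)) := fun a l =>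
    qsum_root hs hc l Finset.inter_subset_right (mm_card hc hk1 a l)
  have h3 := Finset.sum_le_sum (s := univ) fun a _ =>
    Finset.sum_le_sum (s := Q a \ hub Q K k) fun b _ => h1 a b
  have h4 := Finset.sum_le_sum (s := univ) fun a _ =>
    Finset.sum_le_sum (s := Q a \ hub Q K k) fun l _ => h2 a l
  have h5 := qsum_out (K := K) hs hc
  linarith

/-- `(u - q1) * (u - q2) ≥ 0` gives `q1 * q2 ≥ u ^ 2 - u * ((u - q1) + (u - q2))`, with
`1 / 2 ≤ u ≤ 51 / 100`; `trip_card`, `q1_sum`, `q2_sum`. -/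
theorem qq_sum (hs : Setup D k p δ) (hc : Cov D k Q Q2) (hK : 1 ≤ K)
    (hH : ∑ a, ((Q a ∩ hub Q K k).card : ℝ) ≤ Fintype.card ι * k / 8) :
    (Fintype.card ι / 16 - 10 ^ 11 * K * dfc p δ D) * k ^ 2 ≤
      ∑ t ∈ trip Q (hub Q K k), sv p D {t.1, t.2.1} (mm Q Q2 t.1 t.2.2) *
        sv p D {t.2.1, t.2.2} (mm Q Q2 t.1 t.2.2) := by
  have h1 := q1_sum hs hc (hub Q K k)
  have h2 := q2_sum (K := K) hs hc
  have h3 := trip_card hs hc hH
  have hd := dfc_nonneg hs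
  have hd0 := hs.d0
  have hd1 := hs.d1
  have hK' : (1 : ℝ) ≤ K := by exact_mod_cast hK
  have hn : (0 : ℝ) ≤ Fintype.card ι := Nat.cast_nonneg _
  have hk2 : (0 : ℝ) ≤ (k : ℝ) ^ 2 := by positivity
  have h4 : ∀ t : ι × ι × ι, 1 / 4 - 51 / 100 *
      ((1 / 2 + δ - sv p D {t.1, t.2.1} (mm Q Q2 t.1 t.2.2)) +
        (1 / 2 + δ - sv p D {t.2.1, t.2.2} (mm Q Q2 t.1 t.2.2))) ≤
      sv p D {t.1, t.2.1} (mm Q Q2 t.1 t.2.2) * sv p D {t.2.1, t.2.2} (mm Q Q2 t.1 t.2.2) := by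
    intro t
    have g1 := qsum_nn hs t.1 t.2.1 (mm Q Q2 t.1 t.2.2)
    have g2 := qsum_nn hs t.2.1 t.2.2 (mm Q Q2 t.1 t.2.2)
    have g3 := mul_nonneg g1 g2
    have g4 := mul_nonneg (add_nonneg g1 g2) (show (0 : ℝ) ≤ 1 / 100 - δ by linarith)
    have g5 := mul_nonneg hd0 hd0
    nlinarith
  refine le_trans ?_ (Finset.sum_le_sum fun t _ => h4 t)
  rw [Finset.sum_sub_distrib, ← Finset.mul_sum, Finset.sum_add_distrib, Finset.sum_const,
    nsmul_eq_mul]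
  have g1 := mul_nonneg hn hk2
  have g2 := mul_nonneg hd hk2
  have g3 := mul_nonneg (sub_nonneg.2 hK') g2
  nlinarith

end Vale.Agent.P336C
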