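import Vale.Agent.P336C.Defs

/-! Short signed sums of the weights do not vanish. -/

namespace Vale.Agent.P336C

open Finset

/-- Signed digits: `B` divides `e 0`, so `e 0 = 0`; divide by `B` and induct. -/
theorem digits_zero {B : ℤ} (m : ℕ) (e : ℕ → ℤ) (he : ∀ j < m, |e j| < B)
    (h : ∑ j ∈ range m, e j * B ^ j = 0) : ∀ j < m, e j = 0 := by
  induction m generalizing e with
  | zero => intro j hj; omega
  | succ m ih =>
    have hB : 0 < B := (abs_nonneg _).trans_lt (he 0 (Nat.succ_pos m))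
    rw [sum_range_succ', pow_zero, mul_one] at h
    have h1 : ∑ j ∈ range m, e (j + 1) * B ^ (j + 1) = B * ∑ j ∈ range m, e (j + 1) * B ^ j := by
      rw [mul_sum]
      exact sum_congr rfl fun j _ => by ring
    rw [h1] at h
    have h0 : e 0 = 0 := Int.eq_zero_of_abs_lt_dvd
      ⟨-∑ j ∈ range m, e (j + 1) * B ^ j, by linarith⟩ (he 0 (Nat.succ_pos m))
    rw [h0, add_zero] at h
    have h2 := ih (fun j => e (j + 1)) (fun j hj => he (j + 1) (by omega))
      ((mul_eq_zero.1 h).resolve_left hB.ne')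
    intro j hj
    rcases j with _ | j
    · exact h0
    · exact h2 j (by omega)

/-- Vandermonde: `Matrix.eq_zero_of_forall_pow_sum_mul_pow_eq_zero` after enumerating `P`, or
pair the power sums with the coefficients of `∏ i ∈ P.erase a, (X - C i)`. -/
theorem power_sums {n d : ℕ} (P : Finset (Fin n)) (hP : P.card ≤ d) (s : Fin n → ℤ)
    (h : ∀ j ≤ d, ∑ i ∈ P, s i * ((i : ℕ) : ℤ) ^ j = 0) : ∀ i ∈ P, s i = 0 := by
  let φ := P.equivFin.symm
  have hinj : Function.Injective (fun k : Fin P.card => (((φ k : Fin n) : ℕ) : ℤ)) := by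
    intro a b hab
    have : ((φ a : Fin n) : ℕ) = ((φ b : Fin n) : ℕ) := Nat.cast_injective (R := ℤ) hab
    exact φ.injective (Subtype.ext (Fin.ext this))
  have key := Matrix.eq_zero_of_forall_pow_sum_mul_pow_eq_zero
    (v := fun k : Fin P.card => s (φ k)) hinj fun j => by
      have h1 := h j (j.2.le.trans hP)
      rw [← sum_coe_sort P, ← Equiv.sum_comp φ] at h1
      exact h1
  intro i hi
  have := congrFun key (φ.symm ⟨i, hi⟩)
  simpa using this

/-- Binomial expansion (`add_pow`): the digit of `B ^ j` is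
`choose d j * ∑ i ∈ P, s i * i ^ (d - j)`, of size at most `2 ^ d * n * (n + 1) ^ d < bb d n`. -/
theorem sidon {n d : ℕ} (P : Finset (Fin n)) (hP : P.Nonempty) (hd : P.card ≤ d) (s : Fin n → ℤ)
    (hs : ∀ i ∈ P, s i = 1 ∨ s i = -1) :
    ∑ i ∈ P, s i * ((bb d n : ℤ) + ((i : ℕ) : ℤ)) ^ d ≠ 0 := by
  intro h
  have h1 : ∑ j ∈ range (d + 1), ((d.choose j : ℤ) * ∑ i ∈ P, s i * ((i : ℕ) : ℤ) ^ (d - j)) *
      (bb d n : ℤ) ^ j = 0 := by
    rw [← h]
    simp only [add_pow, mul_sum, sum_mul]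
    rw [sum_comm]
    exact sum_congr rfl fun i _ => sum_congr rfl fun j _ => by ring
  have h2 := digits_zero (d + 1) _ (fun j hj => by
    have a1 : |∑ i ∈ P, s i * ((i : ℕ) : ℤ) ^ (d - j)| ≤ (n : ℤ) * ((n : ℤ) + 1) ^ d := by
      refine (abs_sum_le_sum_abs _ _).trans ?_
      have : ∀ i ∈ P, |s i * ((i : ℕ) : ℤ) ^ (d - j)| ≤ ((n : ℤ) + 1) ^ d := fun i hi => by
        have b1 : |s i| = 1 := by rcases hs i hi with h | h <;> simp [h]
        have b2 : ((i : ℕ) : ℤ) ≤ (n : ℤ) + 1 := by have := i.2; omega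
        rw [abs_mul, b1, one_mul, abs_of_nonneg (by positivity)]
        exact (pow_le_pow_left₀ (by positivity) b2 _).trans
          (pow_le_pow_right₀ (by omega) (Nat.sub_le _ _))
      refine (sum_le_card_nsmul _ _ _ this).trans ?_
      rw [nsmul_eq_mul]
      have hc : (P.card : ℤ) ≤ n := by
        have := P.card_le_univ
        rw [Fintype.card_fin] at this
        exact_mod_cast this
      gcongr
    have a2 : (d.choose j : ℤ) ≤ 2 ^ d := by exact_mod_cast Nat.choose_le_two_pow d j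
    rw [abs_mul, abs_of_nonneg (by positivity)]
    refine lt_of_le_of_lt (mul_le_mul a2 a1 (abs_nonneg _) (by positivity)) ?_
    unfold bb
    push_cast
    have c0 : (0 : ℤ) ≤ n := by positivity
    have c1 : (2 : ℤ) ^ d ≤ ((n : ℤ) + 2) ^ d := pow_le_pow_left₀ (by norm_num) (by omega) _
    have c2 : ((n : ℤ) + 1) ^ d ≤ ((n : ℤ) + 2) ^ d := pow_le_pow_left₀ (by omega) (by omega) _
    have c3 : (0 : ℤ) < ((n : ℤ) + 2) ^ d := by positivity
    calc (2 : ℤ) ^ d * ((n : ℤ) * ((n : ℤ) + 1) ^ d)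
        ≤ ((n : ℤ) + 2) ^ d * ((n : ℤ) * ((n : ℤ) + 2) ^ d) := by gcongr
      _ = (((n : ℤ) + 2) ^ d * ((n : ℤ) + 2) ^ d) * n := by ring
      _ < (((n : ℤ) + 2) ^ d * ((n : ℤ) + 2) ^ d) * ((n : ℤ) + 2) ^ 2 :=
        mul_lt_mul_of_pos_left (by nlinarith) (mul_pos c3 c3)
      _ = _ := by ring) h1
  have h3 := power_sums P hd s fun j hj => by
    have h4 := h2 (d - j) (by omega)
    rw [Nat.sub_sub_self hj] at h4
    exact (mul_eq_zero.1 h4).resolve_left
      (by exact_mod_cast (Nat.choose_pos (Nat.sub_le _ _)).ne')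
  obtain ⟨i, hi⟩ := hP
  have := h3 i hi
  rcases hs i hi with h | h <;> omega

end Vale.Agent.P336C
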