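import Vale.Agent.P336C.Harris

/-! Convexity: a tight node is not sensitive to a small set. -/

namespace Vale.Agent.P336C

open Finset Vale.Agent.P151

variable {ι : Type} [Fintype ι] [DecidableEq ι] {D : Finset (Finset ι)} {k K L : ℕ} {p δ : ℝ}
  {P Q B M : Finset ι}

/-- `¬ Alive D P S` follows from the two events on `Q \ B` and on `B`; `E_fkg_anti`; `hp` for the
first factor; for the second factor `E_tower M`, then for each `T` use `hp` with
`G l S = Alive D (insert l P) (S \ M ∪ T ∩ M)` (for `l ∈ B`, `l ∉ M`). -/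
theorem split_exp (h0 : 0 ≤ p) (h1 : p < 1) (hc : Cover D k P Q) (hB : B ⊆ Q)
    (hd : Disjoint B M) :
    E p (fun T => Real.exp (-(th p * (∑ l ∈ Q \ B, sv p D (insert l P) ∅ +
      ∑ l ∈ B, E p fun S => ind (Alive D (insert l P) (S \ M ∪ T ∩ M)))))) ≤
        1 - sv p D P ∅ := by

  have anti : ∀ R : Finset ι, Antitone fun S : Finset ι =>
      ind (∀ l ∈ R, ¬ (l ∈ S ∧ Alive D (insert l P) S)) := fun R S S' h =>
    ind_mono fun h2 l hl h3 => h2 l hl ⟨h h3.1, h3.2.mono h⟩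
  have inv : ∀ (l : ι) (S S' : Finset ι), S' ⊆ insert l S → Alive D (insert l P) S' →
      Alive D (insert l P) S := by
    rintro l S S' h ⟨T, k1, k2, k3⟩
    refine ⟨T, k1, k2, fun x hx => ?_⟩
    rcases mem_union.1 (k3 hx) with h4 | h4
    · rcases mem_insert.1 (h h4) with rfl | h5
      · exact mem_union_right _ (mem_insert_self _ _)
      · exact mem_union_left _ h5
    · exact mem_union_right _ h4
  have f1 := hp h0 h1 (Q \ B) (fun l S => Alive D (insert l P) S) (fun _ _ _ h h2 => h2.mono h)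
    fun l _ S => inv l S _ subset_rfl
  have f2 : E p (fun T => Real.exp (-(th p *
      ∑ l ∈ B, E p fun S => ind (Alive D (insert l P) (S \ M ∪ T ∩ M))))) ≤
      E p fun S => ind (∀ l ∈ B, ¬ (l ∈ S ∧ Alive D (insert l P) S)) := by
    rw [E_tower M fun S => ind (∀ l ∈ B, ¬ (l ∈ S ∧ Alive D (insert l P) S))]
    refine E_mono h0 h1.le fun T => (hp h0 h1 B
      (fun l S => Alive D (insert l P) (S \ M ∪ T ∩ M)) (fun _ _ _ h h2 => h2.mono
        (union_subset_union (sdiff_subset_sdiff h subset_rfl) subset_rfl))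
      fun l _ S => inv l _ _ fun x hx => ?_).trans (E_mono h0 h1.le fun S =>
        ind_mono fun h2 l hl h3 => h2 l hl ⟨?_, h3.2⟩)
    · simp only [mem_union, mem_sdiff, mem_insert] at hx ⊢
      tauto
    · rcases mem_union.1 h3.1 with h4 | h4
      · exact (mem_sdiff.1 h4).1
      · exact absurd (mem_inter.1 h4).2 (disjoint_left.1 hd hl)
  simp only [mul_add, neg_add, Real.exp_add, E_mul_left, sv_empty]
  rw [← E_ind_not]
  refine (mul_le_mul f1 f2 (E_nonneg h0 h1.le fun _ => (Real.exp_pos _).le)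
    (E_nonneg h0 h1.le fun _ => ind_nonneg _)).trans
    ((E_fkg_anti h0 h1.le (anti _) (anti _)).trans (E_mono h0 h1.le fun S => ?_))
  rw [← ind_and]
  refine ind_mono ?_
  rintro ⟨k1, k2⟩ ⟨T, hT, h3, h4⟩
  obtain ⟨l, hl, hlT⟩ := hc.2.2 T hT h3
  have h5 : l ∈ S ∧ Alive D (insert l P) S :=
    ⟨(mem_union.1 (h4 hlT)).resolve_right (disjoint_right.1 hc.2.1 hl), T, hT,
      insert_subset hlT h3, h4.trans (union_subset_union subset_rfl (subset_insert _ _))⟩
  by_cases h : l ∈ B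
  · exact k2 l h h5
  · exact k1 l (mem_sdiff.2 ⟨hl, h⟩) h5

/-- Let `W T` be the exponent in `split_exp`. `E W = th p * ∑ l ∈ Q, sv (insert l P) ∅`
(`E_tower`), at most `2 * log 2 * (1 / 2 + δ)`. If `T ∩ M = ∅` then `W T = W0 = E W - X` with
`X = th p * (left side)`. Put `v = max (log 2 - W0) 0`; pointwise (`tang`, `tang2`)
`1 - exp (-W T) ≤ 1 / 2 + (W T - log 2) / 2 - ind (T ∩ M = ∅) * v ^ 2 / 4`. The event has
probability `(1 - p) ^ |M| ≥ exp (-(6 * log 2)) = 1 / 64` (`E_pin` with `g = 1`, `exp_th_le`). So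
`v ^ 2 ≤ 256 * (1 / 2 + δ - sv P ∅)`, `v ≤ η + v ^ 2 / (4 * η)`, `X ≤ 2 * δ + v`, and
`1 ≤ k * th p`. -/
theorem split (hs : Setup D k p δ) (hP : P.Nonempty) (hP2 : P.card ≤ 2) (hc : Cover D k P Q)
    (hB : B ⊆ Q) (hd : Disjoint B M) (hM : M.card ≤ 3 * k) {η : ℝ} (hη : 0 < η) :
    ∑ l ∈ B, (sv p D (insert l P) ∅ - sv p D (insert l P) M) ≤
      k * (2 * δ + η + 64 * (1 / 2 + δ - sv p D P ∅) / η) := by

  have h0 := hs.p0.le
  have h1 := hs.p1
  have ht := th_nonneg h0 h1
  have l2 : Real.log 2 ≤ 1 := by linarith [Real.log_two_lt_d9]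
  have l0 : 0 ≤ Real.log 2 := Real.log_nonneg one_le_two
  have key := split_exp h0 h1 hc hB hd
  set a := ∑ l ∈ Q \ B, sv p D (insert l P) ∅ with ha
  set b : Finset ι → ℝ := fun T =>
    ∑ l ∈ B, E p fun S => ind (Alive D (insert l P) (S \ M ∪ T ∩ M)) with hb
  set b0 := ∑ l ∈ B, sv p D (insert l P) M with hb0
  set b1 := ∑ l ∈ B, sv p D (insert l P) ∅ with hb1
  have e1 : E p b = b1 := by
    rw [hb, E_sum]
    exact sum_congr rfl fun l _ => by rw [sv_empty, E_tower M fun S => ind (Alive D (insert l P) S)]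
  have e2 : th p * (a + b1) ≤ Real.log 2 + 2 * δ := by
    have k1 : a + b1 ≤ k * (1 / 2 + δ) := by
      rw [ha, hb1, sum_sdiff hB]
      refine (sum_le_card_nsmul _ _ _ fun l _ => hs.up _ (insert_nonempty _ _)
        ((card_insert_le _ _).trans (by omega))).trans ?_
      rw [nsmul_eq_mul]
      exact mul_le_mul_of_nonneg_right (Nat.cast_le.2 hc.1) (by linarith [hs.d0])
    have k2 := mul_le_mul_of_nonneg_left k1 ht
    have k3 := mul_le_mul_of_nonneg_right hs.hi (by linarith [hs.d0] : 0 ≤ 1 / 2 + δ)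
    nlinarith [hs.d0]
  set v := max (Real.log 2 - th p * (a + b0)) 0 with hv
  have pt : ∀ T, 1 - Real.exp (-(th p * (a + b T))) ≤
      1 / 2 + (th p * (a + b T) - Real.log 2) / 2 - ind (T ∩ M = ∅) * 1 * (v ^ 2 / 4) := fun T => by
    by_cases h : T ∩ M = ∅
    · have e : b T = b0 := by simp only [hb, hb0, h, union_empty, sv]
      rw [ind_pos h, e]
      rcases le_total (th p * (a + b0)) (Real.log 2) with h2 | h2
      · rw [hv, max_eq_left (sub_nonneg.2 h2)]
        linarith [tang2 h2]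
      · rw [hv, max_eq_right (sub_nonpos.2 h2)]
        linarith [tang (th p * (a + b0))]
    · rw [ind_neg h]
      linarith [tang (th p * (a + b T))]
  have pi : 1 / 64 ≤ E p fun T => ind (T ∩ M = ∅) * 1 := by
    rw [E_pin (empty_subset M) fun _ => 1, E_const, card_empty, pow_zero, one_mul, mul_one,
      sdiff_empty]
    refine le_trans ?_ (exp_th_le h0 h1 _)
    have k1 : (M.card : ℝ) ≤ 3 * k := by exact_mod_cast hM
    have k2 : th p * M.card ≤ (6 : ℕ) * Real.log 2 := by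
      push_cast
      nlinarith [mul_le_mul_of_nonneg_left k1 ht, hs.hi]
    refine le_trans (le_of_eq ?_) (Real.exp_le_exp.2 (neg_le_neg k2))
    rw [Real.exp_neg, Real.exp_nat_mul, Real.exp_log two_pos]
    norm_num
  have e3 := E_mono h0 h1.le pt
  simp only [div_eq_mul_inv _ (2 : ℝ), E_sub, E_add, E_mul_right, E_mul_left, E_const, e1] at e3
  simp only [E_mul_right] at pi
  have e4 : th p * (a + b1) ≤ Real.log 2 + 2 * δ := e2
  have e5 : v ^ 2 ≤ 256 * (1 / 2 + δ - sv p D P ∅) := by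
    have k1 := mul_le_mul_of_nonneg_right pi (by positivity : 0 ≤ v ^ 2 / 4)
    have k2 : E p (fun T => Real.exp (-(th p * (a + b T)))) ≤ 1 - sv p D P ∅ := key
    linarith
  have e6 : v ≤ η + 64 * (1 / 2 + δ - sv p D P ∅) / η := by
    rw [← sub_le_iff_le_add', le_div_iff₀ hη]
    nlinarith [sq_nonneg (v - 2 * η)]
  have e7 : Real.log 2 - th p * (a + b0) ≤ v := le_max_left _ _
  have e8 : 0 ≤ b1 - b0 := sub_nonneg.2 (sum_le_sum fun l _ => sv_anti h0 h1.le (empty_subset M))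
  rw [sum_sub_distrib]
  have e9 : th p * (b1 - b0) ≤ 2 * δ + η + 64 * (1 / 2 + δ - sv p D P ∅) / η := by linarith
  have e10 := mul_le_mul_of_nonneg_left e9 (Nat.cast_nonneg (α := ℝ) k)
  have e11 := mul_le_mul_of_nonneg_right hs.lo e8
  linarith

end Vale.Agent.P336C
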