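import Vale.Agent.P336C.Split

/-! Consequences of tightness. -/

namespace Vale.Agent.P336C

open Finset Vale.Agent.P151

variable {ι : Type} [Fintype ι] [DecidableEq ι] {D : Finset (Finset ι)} {k K L : ℕ} {p δ : ℝ}
  {P Q M : Finset ι}

theorem Setup.p_le (hs : Setup D k p δ) : (k : ℝ) * p ≤ 7 / 5 := by
  have h1 := mul_le_mul_of_nonneg_left (le_th hs.p0.le hs.p1) (Nat.cast_nonneg (α := ℝ) k)
  linarith [hs.hi, Real.log_two_lt_d9]

theorem Setup.le_p (hs : Setup D k p δ) : 1 / 2 ≤ (k : ℝ) * p := by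
  have hk : (1000 : ℝ) ≤ k := by exact_mod_cast hs.kk
  have h1 : p ≤ 1 / 2 := by nlinarith [hs.p_le, hs.p0]
  have h2 : th p ≤ 2 * p := by
    rw [th, div_le_iff₀ (sub_pos.2 hs.p1)]
    nlinarith [hs.p0]
  have h3 := mul_le_mul_of_nonneg_left h2 (Nat.cast_nonneg (α := ℝ) k)
  linarith [hs.lo]

theorem Setup.le_u (hs : Setup D k p δ) (hP : P.Nonempty) (h3 : P.card ≤ 3) (M : Finset ι) :
    sv p D P M ≤ 1 / 2 + δ :=
  (sv_anti hs.p0.le hs.p1.le (Finset.empty_subset M)).trans (hs.up P hP h3)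

theorem tstar_ins (hs : Setup D k p δ) (hP2 : P.card ≤ 2) (l : ι) (M : Finset ι) :
    sv p D (insert l P) M ≤ 1 / 2 + δ :=
  hs.le_u (insert_nonempty _ _) ((card_insert_le _ _).trans (by omega)) M

theorem tstar_base (hs : Setup D k p δ) (hP2 : P.card ≤ 2) (hc : Cover D k P Q) (M : Finset ι) :
    ∑ l ∈ Q \ M, (1 / 2 + δ - sv p D (insert l P) M) ≤ 3 / 2 * k * (1 / 2 + δ - sv p D P M) ∧
      (k : ℝ) - (Q \ M).card ≤ 3 * k * (1 / 2 + δ - sv p D P M) := by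
  have hk : (1000 : ℝ) ≤ k := by exact_mod_cast hs.kk
  have hk0 : (0 : ℝ) < k := by linarith
  have h1 := tg hs.p0.le hs.p1 (by have := hs.kk; omega) hs.hi hc M
  have hS : 0 ≤ ∑ l ∈ Q \ M, (1 / 2 + δ - sv p D (insert l P) M) :=
    sum_nonneg fun l _ => sub_nonneg.2 (tstar_ins hs hP2 l M)
  have hc' : ((Q \ M).card : ℝ) ≤ k := by exact_mod_cast (card_le_card sdiff_subset).trans hc.1
  have e : ∑ l ∈ Q \ M, sv p D (insert l P) M = (Q \ M).card * (1 / 2 + δ) -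
      ∑ l ∈ Q \ M, (1 / 2 + δ - sv p D (insert l P) M) := by
    rw [sum_sub_distrib, sum_const, nsmul_eq_mul]
    ring
  rw [e] at h1
  generalize ∑ l ∈ Q \ M, (1 / 2 + δ - sv p D (insert l P) M) = S at hS h1 ⊢
  generalize ((Q \ M).card : ℝ) = c at hc' h1 ⊢
  have a1 := Real.log_two_gt_d9
  have a2 := Real.log_two_lt_d9
  have hδ := hs.d0
  have h2 : Real.log 2 * ((1 / 2 + δ) * (k - c) + S) ≤ k * (1 / 2 + δ - sv p D P M) := by
    have h3 := mul_le_mul_of_nonneg_left h1 hk0.le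
    have e2 : (k : ℝ) * (1 / 2 + Real.log 2 * ((c * (1 / 2 + δ) - S) / k - 1 / 2)) =
        k / 2 + Real.log 2 * (c * (1 / 2 + δ) - S - k / 2) := by
      field_simp
    have h4 : 0 ≤ k * δ * (1 - Real.log 2) := by
      have : 0 ≤ 1 - Real.log 2 := by linarith
      positivity
    rw [e2] at h3
    linarith
  have h5 : 0 ≤ k - c := sub_nonneg.2 hc'
  have h6 : 0 ≤ δ * (k - c) := mul_nonneg hδ h5
  have h7 : 2 / 3 * ((1 / 2 + δ) * (k - c) + S) ≤ Real.log 2 * ((1 / 2 + δ) * (k - c) + S) :=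
    mul_le_mul_of_nonneg_right (by linarith) (by positivity)
  constructor <;> linarith

/-- From `tg` with `M = ∅`, `u = 1 / 2 + δ`:
`log 2 * (u * (1 - |Q| / k) + (∑ l ∈ Q, (u - sv (insert l P) ∅)) / k) ≤ u - sv P ∅`. -/
theorem t1 (hs : Setup D k p δ) (hP : P.Nonempty) (hP2 : P.card ≤ 2) (hc : Cover D k P Q) :
    ∑ l ∈ Q, (1 / 2 + δ - sv p D (insert l P) ∅) ≤ 3 / 2 * k * (1 / 2 + δ - sv p D P ∅) ∧
      (k : ℝ) - Q.card ≤ 3 * k * (1 / 2 + δ - sv p D P ∅) := by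
  have h := tstar_base hs hP2 hc ∅
  rwa [sdiff_empty] at h

/-- From `tg` and `le_u`; `|Q \ M| + |Q ∩ M| ≤ k`; `log 2 * u ≥ 1 / 3`. -/
theorem ovl (hs : Setup D k p δ) (hP : P.Nonempty) (hP2 : P.card ≤ 2) (hc : Cover D k P Q)
    (M : Finset ι) : ((Q ∩ M).card : ℝ) ≤ 3 * k * (1 / 2 + δ - sv p D P M) := by
  have h := (tstar_base hs hP2 hc M).2
  have h1 : (((Q \ M).card + (Q ∩ M).card : ℕ) : ℝ) ≤ k := by
    rw [card_sdiff_add_card_inter]
    exact_mod_cast hc.1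
  push_cast at h1
  linarith

/-- Induction on `J`: cut a chunk `B` of at most `m` elements (`Finset.exists_subset_card_eq`),
use `split` with `M \ B` and `sv_le_add`. -/
theorem chunks (hs : Setup D k p δ) (hP : P.Nonempty) (hP2 : P.card ≤ 2) (hc : Cover D k P Q)
    (hM : M.card ≤ 3 * k) {η : ℝ} (hη : 0 < η) (m J : ℕ) : ∀ B ⊆ Q, B.card ≤ J * m →
    ∑ l ∈ B, (sv p D (insert l P) ∅ - sv p D (insert l P) M) ≤
      J * (k * (2 * δ + η + 64 * (1 / 2 + δ - sv p D P ∅) / η)) + B.card * (p * m) := by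
  induction J with
  | zero =>
    intro B _ hB
    obtain rfl : B = ∅ := card_eq_zero.1 (by omega)
    simp
  | succ J ih =>
    intro B hBQ hB
    obtain ⟨A, hA, hAc⟩ := exists_subset_card_eq (s := B) (n := min m B.card) (min_le_right _ _)
    have hcard := card_sdiff_add_card_eq_card hA
    have h1 := ih (B \ A) (sdiff_subset.trans hBQ) (by rw [Nat.succ_mul] at hB; omega)
    have h2 := split hs hP hP2 hc (hA.trans hBQ) (M := M \ A) disjoint_sdiff
      ((card_le_card sdiff_subset).trans hM) hη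
    have hm : (A.card : ℝ) ≤ m := by exact_mod_cast hAc.le.trans (min_le_left _ _)
    have h3 : ∑ l ∈ A, (sv p D (insert l P) ∅ - sv p D (insert l P) M) ≤
        ∑ l ∈ A, ((sv p D (insert l P) ∅ - sv p D (insert l P) (M \ A)) + p * m) :=
      sum_le_sum fun l _ => by
        have h4 := sv_le_add (D := D) (P := insert l P) (M := M) hs.p0.le hs.p1.le A
        have h5 := mul_le_mul_of_nonneg_left hm hs.p0.le
        linarith
    rw [sum_add_distrib, sum_const, nsmul_eq_mul] at h3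
    rw [← sum_sdiff hA, ← hcard]
    push_cast
    linarith

/-- `chunks` with `J = 500`, `m = k / 500 + 1`, `η = 5 / 10 ^ 6`, and `t1`. -/
theorem tstar (hs : Setup D k p δ) (hP : P.Nonempty) (hP2 : P.card ≤ 2) (hc : Cover D k P Q)
    (hM : M.card ≤ 3 * k) :
    ∑ l ∈ Q, (1 / 2 + δ - sv p D (insert l P) M) ≤
      k * (1 / 100 + 10 ^ 10 * (1 / 2 + δ - sv p D P ∅)) := by
  have hk : (1000 : ℝ) ≤ k := by exact_mod_cast hs.kk
  have h1 := (t1 hs hP hP2 hc).1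
  have h2 := chunks hs hP hP2 hc hM (η := 5 / 10 ^ 6) (by norm_num) (k / 500 + 1) 500 Q subset_rfl
    (hc.1.trans (by omega))
  have hd : 0 ≤ 1 / 2 + δ - sv p D P ∅ := sub_nonneg.2 (hs.le_u hP (by omega) ∅)
  have e : ∑ l ∈ Q, (1 / 2 + δ - sv p D (insert l P) M) =
      ∑ l ∈ Q, (1 / 2 + δ - sv p D (insert l P) ∅) +
        ∑ l ∈ Q, (sv p D (insert l P) ∅ - sv p D (insert l P) M) := by
    rw [← sum_add_distrib]
    exact sum_congr rfl fun _ _ => by ring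
  have hm : ((k / 500 + 1 : ℕ) : ℝ) ≤ 3 / 1000 * k := by
    have h3 : ((k / 500 : ℕ) : ℝ) ≤ k / 500 := by exact_mod_cast Nat.cast_div_le (α := ℝ)
    push_cast
    linarith
  have hQ : (Q.card : ℝ) ≤ k := by exact_mod_cast hc.1
  have h4 : (Q.card : ℝ) * (p * ((k / 500 + 1 : ℕ) : ℝ)) ≤ 7 / 5 * (3 / 1000 * k) := by
    rw [← mul_assoc]
    exact mul_le_mul ((mul_le_mul_of_nonneg_right hQ hs.p0.le).trans hs.p_le) hm
      (Nat.cast_nonneg _) (by norm_num)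
  have h5 := mul_le_mul_of_nonneg_left hs.d1 (Nat.cast_nonneg (α := ℝ) k)
  have h6 : 0 ≤ k * (1 / 2 + δ - sv p D P ∅) := mul_nonneg (Nat.cast_nonneg _) hd
  rw [e]
  generalize 1 / 2 + δ - sv p D P ∅ = d at h1 h2 h6 ⊢
  have e2 : ((500 : ℕ) : ℝ) * (k * (2 * δ + 5 / 10 ^ 6 + 64 * d / (5 / 10 ^ 6))) =
      1000 * (k * δ) + k / 400 + 6400000000 * (k * d) := by
    push_cast
    ring
  rw [e2] at h2
  linarith

end Vale.Agent.P336C
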